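import Vale.Agent.P153.R2.Final.Defs
import Vale.Agent.P153.R2.C1.Defs
import Vale.Agent.P153.R2.ARCX.Defs

/-!
# P153 / R2 / UNIQ : the inputs of the final assembly of `Final.CurveLimit`

Every `I_...` is a `Prop` which one of the blocks has to deliver in exactly this form.
-/

open MeasureTheory ProbabilityTheory Filter Topology Set
open scoped NNReal ENNReal

set_option linter.unusedVariables false

namespace Vale.Agent.P153.R2.UNIQ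

open Vale.Agent.P153.R2.Final Vale.Agent.P153.R2.C1

/-- heights -/
abbrev Hg := ℤ × ℤ → ℤ

/-- the marked point `b` of the marked Jordan domain -/
noncomputable def bpt (Φ : (ℝ × ℝ) ≃ₜ (ℝ × ℝ)) : ℂ := toC (Φ (circ Real.pi))

/-- the end point of the interface of the lattice polygon -/
noncomputable def bptD {n : ℕ} (p : ZMod n → ℤ × ℤ) (k : ℕ) (δ : ℝ) : ℂ :=
  mid δ (p ((k : ZMod n) - 1)) (p k)

/-! ### R1 (helper974) -/

/-- existence of uniformizers of marked Jordan domains -/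
def I_unif : Prop := ∀ Φ : (ℝ × ℝ) ≃ₜ (ℝ × ℝ), ∃ ψ, IsUniformizer Φ ψ

/-- uniformizers are injective up to the boundary, and do not take the value `b` at a finite
point -/
def I_uinj : Prop := ∀ (Φ : (ℝ × ℝ) ≃ₜ (ℝ × ℝ)) (ψ : ℂ → ℂ), IsUniformizer Φ ψ →
  InjOn ψ {z : ℂ | 0 ≤ z.im} ∧ ∀ z : ℂ, 0 ≤ z.im → ψ z ≠ bpt Φ

/-- `ψ` is a conformal map of the upper half-plane onto the interior of the lattice polygon,
extended to the boundary, `0` to the starting point and `∞` to the end point of the interface -/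
structure IsUnifD {n : ℕ} (p : ZMod n → ℤ × ℤ) (k : ℕ) (S : Finset Tri) (δ : ℝ) (ψ : ℂ → ℂ) :
    Prop where
  diff : DifferentiableOn ℂ ψ {z | 0 < z.im}
  injOn : InjOn ψ {z | 0 ≤ z.im}
  image : ψ '' {z | 0 < z.im} = toC '' interior (region δ S)
  cont : ContinuousOn ψ {z | 0 ≤ z.im}
  zero : ψ 0 = mid δ (p (-1)) (p 0)
  inf : Tendsto ψ (Bornology.cobounded ℂ ⊓ 𝓟 {z | 0 ≤ z.im}) (𝓝 (bptD p k δ))
  ne : ∀ z : ℂ, 0 ≤ z.im → ψ z ≠ bptD p k δ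

/-- existence and convergence of the discrete uniformizers (Rado) -/
def I_rado : Prop := ∀ (Φ : (ℝ × ℝ) ≃ₜ (ℝ × ℝ)) (ψ : ℂ → ℂ), IsUniformizer Φ ψ →
  ∀ (δ : ℕ → ℝ) (N k : ℕ → ℕ) (p : ∀ n, ZMod (N n) → ℤ × ℤ) (S : ℕ → Finset Tri),
    Approx Φ δ N k p S → ∃ ψn : ℕ → ℂ → ℂ, (∀ n, IsUnifD (p n) (k n) (S n) (δ n) (ψn n)) ∧
      ∀ ε > 0, ∀ᶠ n in atTop, ∀ z : ℂ, 0 ≤ z.im → dist (ψn n z) (ψ z) < ε

/-! ### elementary facts on the lattice domains (FLDI / Base) -/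

/-- finitely many heights, at least one -/
def I_fin : Prop := ∀ (n k : ℕ) (p : ZMod n → ℤ × ℤ) (S : Finset Tri), IsPolygon p →
  Encloses p S → (Heights p k S).Finite ∧ (Heights p k S).Nonempty

/-- the lattice domains are uniformly bounded -/
def I_bdd : Prop := ∀ (Φ : (ℝ × ℝ) ≃ₜ (ℝ × ℝ))
  (δ : ℕ → ℝ) (N k : ℕ → ℕ) (p : ∀ n, ZMod (N n) → ℤ × ℤ) (S : ℕ → Finset Tri),
    Approx Φ δ N k p S → ∃ R : ℝ, ∀ᶠ n in atTop, ∀ z ∈ region (δ n) (S n), ‖toC z‖ ≤ R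

/-! ### INTF (helper113, helper165) -/

/-- existence of the interface (all meshes, all polygons) -/
def I_intf : Prop := ∀ (n k : ℕ) (p : ZMod n → ℤ × ℤ) (S : Finset Tri) (δ : ℝ), 0 < δ → 0 < k →
  k < n → IsPolygon p → Encloses p S → ∀ h ∈ Heights p k S, ∃ c, IsInterface p k S δ h c

/-- uniqueness of the interface up to reparametrisation -/
def I_intu : Prop := ∀ (n k : ℕ) (p : ZMod n → ℤ × ℤ) (S : Finset Tri) (δ : ℝ), 0 < δ → 0 < k →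
  k < n → IsPolygon p → Encloses p S → ∀ h ∈ Heights p k S, ∀ c c', IsInterface p k S δ h c →
    IsInterface p k S δ h c' → ∃ σ : unitInterval ≃o unitInterval, c' = reparam c σ

/-! ### the driver (L2, OBSV, M1: helper476, helper942, helper113, helper605) -/

/-- law of the driver of `SLE_4` on the space of continuous functions: the coordinate process
divided by 2 is a Brownian motion -/
def IsDrvLaw [MeasurableSpace C(ℝ≥0, ℝ)] (lam : Measure C(ℝ≥0, ℝ)) : Prop :=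
  IsBrownianReal (fun (t : ℝ≥0) (w : C(ℝ≥0, ℝ)) => w t / 2) lam

/-- the interface `x` (parametrised by `[0,1]`), its image `η` in the half-plane, its capacity `c`
and its driver `w`, up to a time `T`, and after the time `T₀ < T` the interface stays within `ε` of
the end point -/
structure Disc (ψ : ℂ → ℂ) (b : ℂ) (x : C(unitInterval, ℂ)) (η : ℝ → ℂ) (c : ℝ → ℝ)
    (w : C(ℝ≥0, ℝ)) (T₀ T ε : ℝ) : Prop where
  pos : 0 < T₀
  lt : T₀ < T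
  le : T ≤ 1
  im_nonneg : ∀ t ∈ Ico (0 : ℝ) T, 0 ≤ (η t).im
  map : ∀ t : unitInterval, (t : ℝ) < T → ψ (η t) = x t
  sgen : ARCX.SGen (fun t => w t.toNNReal) η c T
  near : ∀ t : unitInterval, T₀ ≤ (t : ℝ) → dist (x t) b ≤ ε

/-- the drivers converge in law to `2B` -/
def I_drv : Prop := ∀ (Φ : (ℝ × ℝ) ≃ₜ (ℝ × ℝ)) (ψ : ℂ → ℂ), IsUniformizer Φ ψ →
  ∀ (δ : ℕ → ℝ) (N k : ℕ → ℕ) (p : ∀ n, ZMod (N n) → ℤ × ℤ) (S : ℕ → Finset Tri),
    Approx Φ δ N k p S → ∀ ψn : ℕ → ℂ → ℂ, (∀ n, IsUnifD (p n) (k n) (S n) (δ n) (ψn n)) →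
      (∀ ε > 0, ∀ᶠ n in atTop, ∀ z : ℂ, 0 ≤ z.im → dist (ψn n z) (ψ z) < ε) →
      ∀ x : ∀ n : ℕ, Hg → C(unitInterval, ℂ),
        (∀ n, ∀ h ∈ Heights (p n) (k n) (S n), IsInterface (p n) (k n) (S n) (δ n) h (x n h)) →
        ∃ (η : ∀ n : ℕ, Hg → ℝ → ℂ) (c : ∀ n : ℕ, Hg → ℝ → ℝ) (w : ∀ n : ℕ, Hg → C(ℝ≥0, ℝ))
          (T₀ T : ∀ n : ℕ, Hg → ℝ) (ε : ℕ → ℝ), Tendsto ε atTop (𝓝 0) ∧
          (∀ n, ∀ h ∈ Heights (p n) (k n) (S n), Disc (ψn n) (bptD (p n) (k n) (δ n)) (x n h)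
            (η n h) (c n h) (w n h) (T₀ n h) (T n h) (ε n)) ∧
          ∀ [MeasurableSpace C(ℝ≥0, ℝ)] [BorelSpace C(ℝ≥0, ℝ)], ∃ lam : Measure C(ℝ≥0, ℝ),
            IsDrvLaw lam ∧ ∀ f : C(ℝ≥0, ℝ) → ℝ, Continuous f → (∃ M, ∀ y, |f y| ≤ M) →
              Tendsto (fun n => mean (law (p n) (k n) (S n)) fun h => f (w n h)) atTop
                (𝓝 (∫ y, f y ∂lam))

/-! ### SLEX (helper165, helper452) -/

/-- the number of crossings of every fixed annulus is tight -/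
def I_cross : Prop := ∀ (Φ : (ℝ × ℝ) ≃ₜ (ℝ × ℝ))
  (δ : ℕ → ℝ) (N k : ℕ → ℕ) (p : ∀ n, ZMod (N n) → ℤ × ℤ) (S : ℕ → Finset Tri),
    Approx Φ δ N k p S → ∀ x : ∀ n : ℕ, Hg → C(unitInterval, ℂ),
      (∀ n, ∀ h ∈ Heights (p n) (k n) (S n), IsInterface (p n) (k n) (S n) (δ n) h (x n h)) →
      ∀ (y : ℂ) (r : ℝ), 0 < r → ∀ e : ℝ, 0 < e → ∃ m : ℕ, ∀ᶠ n in atTop,
        (law (p n) (k n) (S n)).real {h | Cross (x n h) y r (3 * r) m} ≤ e

/-- after a visit of a small neighbourhood of `b` the interface stays near `b` -/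
def I_end : Prop := ∀ (Φ : (ℝ × ℝ) ≃ₜ (ℝ × ℝ))
  (δ : ℕ → ℝ) (N k : ℕ → ℕ) (p : ∀ n, ZMod (N n) → ℤ × ℤ) (S : ℕ → Finset Tri),
    Approx Φ δ N k p S → ∀ x : ∀ n : ℕ, Hg → C(unitInterval, ℂ),
      (∀ n, ∀ h ∈ Heights (p n) (k n) (S n), IsInterface (p n) (k n) (S n) (δ n) h (x n h)) →
      ∀ r : ℝ, 0 < r → ∀ e : ℝ, 0 < e → ∃ r' > 0, ∀ᶠ n in atTop,
        (law (p n) (k n) (S n)).real {h | ∃ s t : unitInterval, s ≤ t ∧
          dist (x n h s) (bpt Φ) < r' ∧ r < dist (x n h t) (bpt Φ)} ≤ e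

/-! ### BESS (helper334, helper14) -/

/-- almost surely nothing is swallowed -/
def I_bess : Prop := ∀ [MeasurableSpace C(ℝ≥0, ℝ)] [BorelSpace C(ℝ≥0, ℝ)]
  (lam : Measure C(ℝ≥0, ℝ)), IsDrvLaw lam → ∀ᵐ w ∂lam,
    ARCX.NoSwallowR (fun t => w t.toNNReal) ∧ ARCX.NoSwallowH (fun t => w t.toNNReal)

/-! ### EXAP -/

/-- there is a marked Jordan domain with an approximation -/
def I_exap : Prop := ∃ (Φ : (ℝ × ℝ) ≃ₜ (ℝ × ℝ)) (δ : ℕ → ℝ) (N k : ℕ → ℕ)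
  (p : ∀ n, ZMod (N n) → ℤ × ℤ) (S : ℕ → Finset Tri), Approx Φ δ N k p S

/-- the target of the assembly -/
def S_assem : Prop := I_unif → I_uinj → I_rado → I_fin → I_bdd → I_intf → I_drv →
  I_cross → I_end → I_bess → I_exap → CurveLimit

end Vale.Agent.P153.R2.UNIQ
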