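import Vale.Agent.P153.R2.UNIQ.Inputs
import Vale.Agent.P153.R2.BESS.Main
import Vale.Agent.P153.R2.EXAP.Main
import Vale.Agent.P153.R2.FLDI.Br
import Vale.Agent.P153.R2.POLY.Dom
import Vale.Agent.P153.R2.POLY.Intu
import Vale.Agent.P153.R2.R1.Out2

/-!
# P153 / R2 / UNIQ : the inputs `I_bess`, `I_exap`, `I_fin`, `I_bdd`, `I_rado`
-/

open MeasureTheory ProbabilityTheory Filter Topology Set
open scoped NNReal ENNReal

namespace Vale.Agent.P153.R2.UNIQ

open Final

theorem i_bess : I_bess := by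
  intro _ _ lam hlam
  refine P153.BESS.noSwallow (P := lam) (W := fun w t => w t.toNNReal) ?_
  refine ⟨fun t w => w t / 2, hlam, Eventually.of_forall fun w t ht => ?_⟩
  change w t.toNNReal = 2 * (w t.toNNReal / 2)
  ring

theorem i_exap : I_exap := EXAP.exists_approx

theorem i_fin : I_fin := by
  intro n k p S hp hS
  rw [FLDI.heightsF]
  exact ⟨FLDI.hB_fin (FLDI.polyF hp) (FLDI.enclF hS),
    F.Dom.Arcs.heightsB_ne (FLDI.polyF hp) (FLDI.enclF hS) (FLDI.xi_pm k)⟩

theorem polyFacts (n : ℕ) (p : ZMod n → ℤ × ℤ) (S : Finset Tri) (δ : ℝ) (hδ : 0 < δ)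
    (hp : IsPolygon p) (hS : Encloses p S) : R1.PolyFacts p S δ where
  rdom := POLY.rdom_DC hδ hp hS
  bdd := POLY.isBounded_DC hδ S
  front := by
    have h0 : n ≠ 0 := by have := hp.1; omega
    rw [R1.range_PF h0]
    have h1 := POLY.frontier_DC hδ hp hS
    exact h1

theorem i_rado : I_rado := R1.rado_of_facts polyFacts

theorem i_bdd : I_bdd := by
  intro Φ δ N k p S h
  have hF : ∀ n, R1.PolyFacts (p n) (S n) (δ n) := fun n => by
    obtain ⟨h1, -, -, h2, h3⟩ := h.1 n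
    exact polyFacts _ _ _ _ h1 h2 h3
  obtain ⟨R, hR, hev⟩ := (R1.kconv h hF).bdd
  refine ⟨R, ?_⟩
  filter_upwards [hev] with n hn z hz
  obtain ⟨h1, -, -, h2, h3⟩ := h.1 n
  have h4 : toC z ∈ closure (POLY.DC (δ n) (S n)) := by
    rw [POLY.closure_DC h1]
    exact mem_image_of_mem _ hz
  have h5 : closure (POLY.DC (δ n) (S n)) ⊆ Metric.closedBall 0 R :=
    closure_minimal hn Metric.isClosed_closedBall
  have h6 := h5 h4
  rwa [mem_closedBall_zero_iff] at h6

end Vale.Agent.P153.R2.UNIQ
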