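import Vale.Agent.P153.R2.UNIQ.Assem
import Vale.Agent.P153.R2.UNIQ.Facts

/-!
# P153 / R2 / UNIQ : what is left for `Final.CurveLimit`
-/

namespace Vale.Agent.P153.R2.UNIQ

/-- **The curve theorem from its four remaining inputs.** -/
theorem curveLimit_of (hintf : I_intf) (hdrv : I_drv) (hcross : I_cross) (hend : I_end) :
    Final.CurveLimit :=
  s_assem R1.i_unif R1.i_uinj i_rado i_fin i_bdd hintf hdrv hcross hend i_bess i_exap

end Vale.Agent.P153.R2.UNIQ
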