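import Vale.Agent.P153.R2.C1.Dist

/-!
# P153 / R2 / UNIQ : extended continuous mapping theorem

`Y n → μ` in law and, deterministically, `Z n (ω n)` converges to `z y` whenever `Y n (ω n) → y`
(for `μ`-almost every `y`): then `(Y n, Z n)` converges in law to a law carried by `z = z y`.
-/

open MeasureTheory Set Filter Topology
open scoped ENNReal

namespace Vale.Agent.P153.R2.UNIQ

open Vale.Agent.P153.R2.C1

/-- Tightness from finitely many balls. -/
theorem tight_of_balls {E : Type*} [MetricSpace E] [CompleteSpace E] [SecondCountableTopology E]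
    [MeasurableSpace E] [BorelSpace E] (ν : ℕ → Measure E) [∀ n, IsProbabilityMeasure (ν n)]
    (h : ∀ ε : ℝ, 0 < ε → ∀ η : ℝ≥0∞, 0 < η → ∃ T : Set E, T.Finite ∧
      ∀ᶠ n in atTop, ν n (⋃ t ∈ T, Metric.closedBall t ε)ᶜ ≤ η) :
    IsTightMeasureSet (range ν) := by
  classical
  have h' : ∀ ε : ℝ, 0 < ε → ∀ η : ℝ≥0∞, 0 < η → ∃ T : Set E, T.Finite ∧
      ∀ n, ν n (⋃ t ∈ T, Metric.closedBall t ε)ᶜ ≤ η := by
    intro ε hε η hη
    obtain ⟨T, hT, hev⟩ := h ε hε η hη
    obtain ⟨n0, hn0⟩ := eventually_atTop.1 hev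
    have h1 : ∀ n, ∃ T : Set E, T.Finite ∧ ν n (⋃ t ∈ T, Metric.closedBall t ε)ᶜ ≤ η := by
      intro n
      have ht : IsTightMeasureSet {ν n} := isTightMeasureSet_singleton
      obtain ⟨K, hK, hKle⟩ := isTightMeasureSet_iff_exists_isCompact_measure_compl_le.1 ht η hη
      obtain ⟨T, -, hTf, hTK⟩ := hK.finite_cover_balls hε
      refine ⟨T, hTf, (measure_mono ?_).trans (hKle _ rfl)⟩
      refine compl_subset_compl.2 (hTK.trans ?_)
      exact iUnion₂_mono fun t _ => Metric.ball_subset_closedBall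
    choose T' hT' hT'' using h1
    refine ⟨T ∪ ⋃ n ∈ Finset.range n0, T' n, hT.union
      ((Finset.finite_toSet (Finset.range n0)).biUnion fun n _ => hT' n), fun n => ?_⟩
    by_cases hn : n < n0
    · refine (measure_mono (compl_subset_compl.2 ?_)).trans (hT'' n)
      refine iUnion₂_subset fun t ht => subset_iUnion₂_of_subset t ?_ subset_rfl
      exact Or.inr (mem_iUnion₂.2 ⟨n, Finset.mem_range.2 hn, ht⟩)
    · refine (measure_mono (compl_subset_compl.2 ?_)).trans (hn0 n (not_lt.1 hn))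
      exact iUnion₂_subset fun t ht => subset_iUnion₂_of_subset t (Or.inl ht) subset_rfl
  rw [isTightMeasureSet_iff_exists_isCompact_measure_compl_le]
  intro η hη
  obtain ⟨ε', hε'pos, hε'sum⟩ := ENNReal.exists_pos_sum_of_countable' hη.ne' ℕ
  have hj : ∀ j : ℕ, (0 : ℝ) < 1 / ((j : ℝ) + 1) := fun j => by positivity
  choose T hTf hT using fun j : ℕ => h' (1 / ((j : ℝ) + 1)) (hj j) (ε' j) (hε'pos j)
  refine ⟨⋂ j : ℕ, ⋃ t ∈ T j, Metric.closedBall t (1 / ((j : ℝ) + 1)), ?_, ?_⟩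
  · refine TotallyBounded.isCompact_of_isClosed ?_ ?_
    · rw [Metric.totallyBounded_iff]
      intro ε hε
      obtain ⟨j, hjε⟩ := exists_nat_one_div_lt hε
      refine ⟨T j, hTf j, (iInter_subset _ j).trans ?_⟩
      exact iUnion₂_mono fun t _ => Metric.closedBall_subset_ball hjε
    · exact isClosed_iInter fun j => (hTf j).isClosed_biUnion fun t _ => Metric.isClosed_closedBall
  · rintro _ ⟨n, rfl⟩
    rw [compl_iInter]
    exact (measure_iUnion_le _).trans ((ENNReal.tsum_le_tsum fun j => hT j n).trans hε'sum.le)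

lemma exists_seq_of_ball {E : Type*} [PseudoMetricSpace E] (x : E) (G : ℕ → Set E)
    (key : ∀ ε > 0, ∀ᶠ n in atTop, (G n ∩ Metric.ball x ε).Nonempty) :
    ∃ u : ℕ → E, (∀ᶠ n in atTop, u n ∈ G n) ∧ Tendsto u atTop (𝓝 x) := by
  classical
  have hu : ∀ n, ∃ z : E, (G n).Nonempty →
      z ∈ G n ∧ dist x z < Metric.infDist x (G n) + 1 / ((n : ℝ) + 1) := by
    intro n
    by_cases hne : (G n).Nonempty
    · have hlt : Metric.infDist x (G n) < Metric.infDist x (G n) + 1 / ((n : ℝ) + 1) := by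
        have : (0 : ℝ) < 1 / ((n : ℝ) + 1) := by positivity
        linarith
      obtain ⟨z, hz, hd⟩ := (Metric.infDist_lt_iff hne).1 hlt
      exact ⟨z, fun _ => ⟨hz, hd⟩⟩
    · exact ⟨x, fun h => absurd h hne⟩
  choose u hu using hu
  refine ⟨u, ?_, ?_⟩
  · filter_upwards [key 1 one_pos] with n hn
    exact (hu n (hn.mono inter_subset_left)).1
  · rw [Metric.tendsto_atTop']
    intro ε hε
    have h1 := key (ε / 2) (by positivity)
    have h2 : ∀ᶠ n : ℕ in atTop, 1 / ((n : ℝ) + 1) < ε / 2 :=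
      tendsto_one_div_add_atTop_nhds_zero_nat.eventually_lt_const (by positivity)
    obtain ⟨N, hN⟩ := eventually_atTop.1 (h1.and h2)
    refine ⟨N, fun n hn => ?_⟩
    obtain ⟨⟨z, hzG, hz⟩, hn2⟩ := hN n hn.le
    have h3 := (hu n ⟨z, hzG⟩).2
    have h4 : Metric.infDist x (G n) < ε / 2 :=
      (Metric.infDist_le_dist_of_mem hzG).trans_lt (by rw [dist_comm]; exact Metric.mem_ball.1 hz)
    rw [dist_comm]
    linarith

/-- SUPPORT LEMMA for random variables: if `V n → ν` in law, almost every point of the limit is a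
limit of values `V n (ω n)`, `ω n ∈ A n`, for arbitrary events with `P n (A n)ᶜ → 0`. -/
theorem support_rv {E : Type*} [PseudoMetricSpace E] [SecondCountableTopology E]
    [MeasurableSpace E] [BorelSpace E]
    (Ω : ℕ → Type*) [∀ n, MeasurableSpace (Ω n)] (P : ∀ n, Measure (Ω n))
    (hP : ∀ n, IsProbabilityMeasure (P n)) (V : ∀ n, Ω n → E) (hV : ∀ n, Measurable (V n))
    (ν : Measure E) [IsProbabilityMeasure ν]
    (hlim : ∀ f : E → ℝ, Continuous f → (∃ C, ∀ x, |f x| ≤ C) →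
      Tendsto (fun n => ∫ ω, f (V n ω) ∂(P n)) atTop (𝓝 (∫ x, f x ∂ν)))
    (A : ∀ n, Set (Ω n)) (hA : Tendsto (fun n => P n (A n)ᶜ) atTop (𝓝 0)) :
    ∀ᵐ x ∂ν, ∃ ω : ∀ n, Ω n, (∀ᶠ n in atTop, ω n ∈ A n) ∧
      Tendsto (fun n => V n (ω n)) atTop (𝓝 x) := by
  have hpV : ∀ n, IsProbabilityMeasure ((P n).map (V n)) := fun n =>
    Measure.isProbabilityMeasure_map (hV n).aemeasurable
  have hlimV : Tendsto (fun n => toPM ((P n).map (V n)) (hpV n)) atTop
      (𝓝 (toPM ν inferInstance)) := by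
    refine tendsto_pm _ _ _ _ fun f hf hC => (hlim f hf hC).congr fun n => ?_
    exact (integral_map (hV n).aemeasurable hf.aestronglyMeasurable).symm
  have hsupp : ν.support ∈ ae ν := Measure.support_mem_ae
  filter_upwards [hsupp] with x hx
  rw [Measure.mem_support_iff_forall] at hx
  have key : ∀ ε > 0, ∀ᶠ n in atTop, ((V n '' A n) ∩ Metric.ball x ε).Nonempty := by
    intro ε hε
    have hpos : 0 < ν (Metric.ball x ε) := hx _ (Metric.ball_mem_nhds x hε)
    have hl := ProbabilityMeasure.le_liminf_measure_open_of_tendsto hlimV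
      (Metric.isOpen_ball (x := x) (ε := ε))
    obtain ⟨a, ha0, ha⟩ := exists_between hpos
    have h1 : ∀ᶠ n in atTop, a < (P n).map (V n) (Metric.ball x ε) :=
      eventually_lt_of_lt_liminf (ha.trans_le hl)
    have h2 : ∀ᶠ n in atTop, P n (A n)ᶜ < a := hA.eventually_lt_const ha0
    filter_upwards [h1, h2] with n hn1 hn2
    rw [Measure.map_apply (hV n) Metric.isOpen_ball.measurableSet] at hn1
    by_contra hcon
    rw [Set.not_nonempty_iff_eq_empty] at hcon
    have hsub : V n ⁻¹' Metric.ball x ε ⊆ (A n)ᶜ := by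
      intro ω hω hωA
      have : V n ω ∈ (V n '' A n) ∩ Metric.ball x ε := ⟨⟨ω, hωA, rfl⟩, hω⟩
      rw [hcon] at this
      exact this
    exact absurd (hn1.trans_le (measure_mono hsub)) (not_lt.2 hn2.le)
  obtain ⟨u, hu1, hu2⟩ := exists_seq_of_ball x (fun n => V n '' A n) key
  have hne : ∀ n, Nonempty (Ω n) := by
    intro n
    by_contra hcon
    rw [not_nonempty_iff] at hcon
    have h1 := (hP n).measure_univ
    rw [univ_eq_empty_iff.2 hcon, measure_empty] at h1
    exact zero_ne_one h1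
  classical
  have hω : ∀ n, ∃ ω : Ω n, u n ∈ V n '' A n → ω ∈ A n ∧ V n ω = u n := by
    intro n
    by_cases h : u n ∈ V n '' A n
    · obtain ⟨ω, hω, he⟩ := h
      exact ⟨ω, fun _ => ⟨hω, he⟩⟩
    · exact ⟨(hne n).some, fun h' => absurd h' h⟩
  choose ω hω using hω
  refine ⟨ω, ?_, ?_⟩
  · filter_upwards [hu1] with n hn using (hω n hn).1
  · refine hu2.congr' ?_
    filter_upwards [hu1] with n hn using (hω n hn).2.symm

/-- EXTENDED CONTINUOUS MAPPING THEOREM. -/
theorem ecm {E E' : Type*} [PseudoMetricSpace E] [SecondCountableTopology E] [T2Space E]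
    [CompleteSpace E] [MeasurableSpace E] [BorelSpace E]
    [MetricSpace E'] [CompleteSpace E'] [SecondCountableTopology E'] [MeasurableSpace E']
    [BorelSpace E']
    (Ω : ℕ → Type*) [∀ n, MeasurableSpace (Ω n)] (P : ∀ n, Measure (Ω n))
    (hP : ∀ n, IsProbabilityMeasure (P n))
    (Y : ∀ n, Ω n → E) (hY : ∀ n, Measurable (Y n)) (Z : ∀ n, Ω n → E')
    (hZ : ∀ n, Measurable (Z n)) (μ : Measure E) [IsProbabilityMeasure μ]
    (hlim : ∀ f : E → ℝ, Continuous f → (∃ C, ∀ x, |f x| ≤ C) →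
      Tendsto (fun n => ∫ ω, f (Y n ω) ∂(P n)) atTop (𝓝 (∫ x, f x ∂μ)))
    (hdet : ∀ᵐ y ∂μ, ∃ z, ∀ k : ℕ → ℕ, StrictMono k → ∀ ω : ∀ j, Ω (k j),
      Tendsto (fun j => Y (k j) (ω j)) atTop (𝓝 y) →
      Tendsto (fun j => Z (k j) (ω j)) atTop (𝓝 z)) :
    ∃ (ν : Measure (E × E')) (_ : IsProbabilityMeasure ν), ν.map Prod.fst = μ ∧
      (∀ᵐ p ∂ν, ∃ (k : ℕ → ℕ) (_ : StrictMono k) (ω : ∀ j, Ω (k j)),
        Tendsto (fun j => Y (k j) (ω j)) atTop (𝓝 p.1) ∧
        Tendsto (fun j => Z (k j) (ω j)) atTop (𝓝 p.2)) ∧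
      ∀ f : E × E' → ℝ, Continuous f → (∃ C, ∀ x, |f x| ≤ C) →
        Tendsto (fun n => ∫ ω, f (Y n ω, Z n ω) ∂(P n)) atTop (𝓝 (∫ x, f x ∂ν)) := by
  classical
  have hne : Nonempty (Ω 0) := by
    by_contra hcon
    rw [not_nonempty_iff] at hcon
    have h1 := (hP 0).measure_univ
    rw [univ_eq_empty_iff.2 hcon, measure_empty] at h1
    exact zero_ne_one h1
  have hneE' : Nonempty E' := hne.map (Z 0)
  set Good : E → E' → Prop := fun y z => ∀ k : ℕ → ℕ, StrictMono k → ∀ ω : ∀ j, Ω (k j),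
      Tendsto (fun j => Y (k j) (ω j)) atTop (𝓝 y) →
      Tendsto (fun j => Z (k j) (ω j)) atTop (𝓝 z) with hGood
  -- the laws of `Y n`
  have hpY : ∀ n, IsProbabilityMeasure ((P n).map (Y n)) := fun n =>
    Measure.isProbabilityMeasure_map (hY n).aemeasurable
  have hpZ : ∀ n, IsProbabilityMeasure ((P n).map (Z n)) := fun n =>
    Measure.isProbabilityMeasure_map (hZ n).aemeasurable
  have hlimY : Tendsto (fun n => toPM ((P n).map (Y n)) (hpY n)) atTop
      (𝓝 (toPM μ inferInstance)) := by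
    refine tendsto_pm _ _ _ _ fun f hf hC => (hlim f hf hC).congr fun n => ?_
    exact (integral_map (hY n).aemeasurable hf.aestronglyMeasurable).symm
  -- tightness of `Z n`
  have htZ : IsTightMeasureSet (range fun n => (P n).map (Z n)) := by
    refine tight_of_balls (fun n => (P n).map (Z n)) fun ε hε η hη => ?_
    have hnb : ∀ y z, Good y z → ∃ r > 0, ∃ N, ∀ n ≥ N, ∀ ω : Ω n,
        dist (Y n ω) y < r → dist (Z n ω) z < ε := by
      intro y z hg
      by_contra hcon
      push Not at hcon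
      have hfreq : ∀ j : ℕ, ∃ᶠ n in atTop, ∃ ω : Ω n,
          dist (Y n ω) y < 1 / ((j : ℝ) + 1) ∧ ε ≤ dist (Z n ω) z := by
        intro j
        rw [frequently_atTop]
        intro N
        obtain ⟨n, hn, ω, h1, h2⟩ := hcon (1 / ((j : ℝ) + 1)) (by positivity) N
        exact ⟨n, hn, ω, h1, h2⟩
      obtain ⟨k, hk, hkω⟩ := extraction_forall_of_frequently hfreq
      choose ω hω1 hω2 using hkω
      have hYlim : Tendsto (fun j => Y (k j) (ω j)) atTop (𝓝 y) := by
        rw [tendsto_iff_dist_tendsto_zero]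
        refine squeeze_zero (fun _ => dist_nonneg) (fun j => (hω1 j).le)
          tendsto_one_div_add_atTop_nhds_zero_nat
      have hZlim := hg k hk ω hYlim
      rw [Metric.tendsto_atTop] at hZlim
      obtain ⟨N, hN⟩ := hZlim ε hε
      exact absurd (hN N le_rfl) (not_lt.2 (hω2 N))
    have hex : ∀ y, ∃ (z : E') (r : ℝ) (N : ℕ), (∃ z, Good y z) → 0 < r ∧ ∀ n ≥ N, ∀ ω : Ω n,
        dist (Y n ω) y < r → dist (Z n ω) z < ε := by
      intro y
      by_cases hy : ∃ z, Good y z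
      · obtain ⟨z, hz⟩ := hy
        obtain ⟨r, hr, N, hN⟩ := hnb y z hz
        exact ⟨z, r, N, fun _ => ⟨hr, hN⟩⟩
      · exact ⟨hneE'.some, 0, 0, fun h => absurd h hy⟩
    choose zz rr NN hzz using hex
    set U : E → Set E := fun y => Metric.ball y (if ∃ z, Good y z then rr y else 0) with hU
    have hUo : ∀ y, IsOpen (U y) := fun y => Metric.isOpen_ball
    obtain ⟨T, hTc, hTU⟩ := TopologicalSpace.isOpen_iUnion_countable U hUo
    have hfull : μ (⋃ y, U y)ᶜ = 0 := by
      refine measure_mono_null (fun y hy => ?_) hdet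
      intro hgood
      apply hy
      refine mem_iUnion.2 ⟨y, ?_⟩
      have hgood' : ∃ z, Good y z := hgood
      simp only [hU, hgood', if_true]
      exact Metric.mem_ball_self (hzz y hgood').1
    by_cases hη1 : 1 < η
    · refine ⟨∅, finite_empty, Eventually.of_forall fun n => ?_⟩
      have := hpZ n
      exact (prob_le_one).trans hη1.le
    rw [not_lt] at hη1
    -- finitely many of the `U y` have mass `> 1 - η`
    have hfin : ∃ S : Finset E, 1 - η < μ (⋃ y ∈ S, U y) := by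
      have h1 : μ (⋃ y ∈ T, U y) = 1 := by
        rw [hTU]
        have h2 := measure_add_measure_compl (μ := μ) (s := ⋃ y, U y)
          (isOpen_iUnion hUo).measurableSet
        rw [hfull, add_zero, measure_univ] at h2
        exact h2
      have h3 : 1 - η < μ (⋃ y ∈ T, U y) := by
        rw [h1]
        exact ENNReal.sub_lt_self ENNReal.one_ne_top one_ne_zero hη.ne'
      rcases T.eq_empty_or_nonempty with hT0 | hT0
      · refine ⟨∅, ?_⟩
        rw [hT0] at h3
        simp at h3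
      obtain ⟨e, he⟩ := hTc.exists_eq_range hT0
      have h4 : (⋃ y ∈ T, U y) = ⋃ N : ℕ, ⋃ y ∈ (Finset.range N).image e, U y := by
        ext x
        simp only [he, mem_iUnion, Finset.mem_image, Finset.mem_range, exists_prop, mem_range]
        constructor
        · rintro ⟨_, ⟨i, rfl⟩, hx⟩
          exact ⟨i + 1, e i, ⟨i, by omega, rfl⟩, hx⟩
        · rintro ⟨N, _, ⟨i, _, rfl⟩, hx⟩
          exact ⟨e i, ⟨i, rfl⟩, hx⟩
      have h5 : Monotone fun N : ℕ => ⋃ y ∈ (Finset.range N).image e, U y := by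
        intro a b hab
        refine iUnion₂_subset fun y hy => subset_iUnion₂_of_subset y ?_ subset_rfl
        exact Finset.image_subset_image (Finset.range_mono hab) hy
      rw [h4] at h3
      have h6 := tendsto_measure_iUnion_atTop (μ := μ) h5
      obtain ⟨N, hN⟩ := (h6.eventually_const_lt h3).exists
      exact ⟨_, hN⟩
    obtain ⟨S, hS⟩ := hfin
    have hopen : IsOpen (⋃ y ∈ S, U y) := isOpen_biUnion fun y _ => hUo y
    have hlimS := ProbabilityMeasure.le_liminf_measure_open_of_tendsto hlimY hopen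
    have hev1 : ∀ᶠ n in atTop, 1 - η < (P n).map (Y n) (⋃ y ∈ S, U y) :=
      eventually_lt_of_lt_liminf (hS.trans_le hlimS)
    refine ⟨zz '' (S : Set E), (S.finite_toSet).image _, ?_⟩
    filter_upwards [hev1, eventually_ge_atTop (S.sup NN)] with n hn1 hn2
    rw [Measure.map_apply (hY n) hopen.measurableSet] at hn1
    have hcl : MeasurableSet (⋃ t ∈ zz '' (S : Set E), Metric.closedBall t ε)ᶜ :=
      (((S.finite_toSet).image _).isClosed_biUnion fun t _ =>
        Metric.isClosed_closedBall).measurableSet.compl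
    rw [Measure.map_apply (hZ n) hcl]
    have hsub : Z n ⁻¹' (⋃ t ∈ zz '' (S : Set E), Metric.closedBall t ε)ᶜ ⊆
        (Y n ⁻¹' (⋃ y ∈ S, U y))ᶜ := by
      intro ω hω hYω
      obtain ⟨y, hyS, hy⟩ := mem_iUnion₂.1 hYω
      apply hω
      have hgood : ∃ z, Good y z := by
        by_contra hno
        simp only [hU, hno, if_false, Metric.ball_zero] at hy
        exact hy
      simp only [hU, hgood, if_true] at hy
      refine mem_iUnion₂.2 ⟨zz y, ⟨y, hyS, rfl⟩, ?_⟩
      exact ((hzz y hgood).2 n ((Finset.le_sup (f := NN) hyS).trans hn2) ω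
        (Metric.mem_ball.1 hy)).le
    refine (measure_mono hsub).trans ?_
    rw [prob_compl_eq_one_sub (hY n hopen.measurableSet)]
    exact tsub_le_iff_tsub_le.1 hn1.le
  -- tightness of the joint laws
  have hmeas : ∀ n, Measurable fun ω => (Y n ω, Z n ω) := fun n => (hY n).prodMk (hZ n)
  have hpYZ : ∀ n, IsProbabilityMeasure ((P n).map fun ω => (Y n ω, Z n ω)) := fun n =>
    Measure.isProbabilityMeasure_map (hmeas n).aemeasurable
  have htY : IsTightMeasureSet (range fun n => (P n).map (Y n)) := by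
    have hc : IsCompact (closure (range fun n => toPM ((P n).map (Y n)) (hpY n))) :=
      hlimY.isCompact_insert_range.closure_of_subset (subset_insert _ _)
    have h1 := isTightMeasureSet_of_isCompact_closure hc
    refine h1.subset ?_
    rintro _ ⟨n, rfl⟩
    exact ⟨_, ⟨n, rfl⟩, rfl⟩
  have htYZ : IsTightMeasureSet (range fun n => (P n).map fun ω => (Y n ω, Z n ω)) := by
    refine IsTightMeasureSet.prodMk (htY.subset ?_) (htZ.subset ?_)
    · rintro _ ⟨_, ⟨n, rfl⟩, rfl⟩
      refine ⟨n, ?_⟩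
      simp only
      rw [Measure.fst, Measure.map_map measurable_fst (hmeas _)]
      rfl
    · rintro _ ⟨_, ⟨n, rfl⟩, rfl⟩
      refine ⟨n, ?_⟩
      simp only
      rw [Measure.snd, Measure.map_map measurable_snd (hmeas _)]
      rfl
  -- every subsequence has a good subsequential limit
  have hsub : ∀ ψ : ℕ → ℕ, StrictMono ψ → ∃ (θ : ℕ → ℕ) (_ : StrictMono θ) (ν : Measure (E × E'))
      (_ : IsProbabilityMeasure ν), ν.map Prod.fst = μ ∧
      (∀ᵐ p ∂ν, ∃ (k : ℕ → ℕ) (_ : StrictMono k) (ω : ∀ j, Ω (k j)),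
        Tendsto (fun j => Y (k j) (ω j)) atTop (𝓝 p.1) ∧
        Tendsto (fun j => Z (k j) (ω j)) atTop (𝓝 p.2)) ∧
      ∀ f : E × E' → ℝ, Continuous f → (∃ C, ∀ x, |f x| ≤ C) →
        Tendsto (fun n => ∫ ω, f (Y (ψ (θ n)) ω, Z (ψ (θ n)) ω) ∂(P (ψ (θ n)))) atTop
          (𝓝 (∫ x, f x ∂ν)) := by
    intro ψ hψ
    have ht' : IsTightMeasureSet (range fun n => (P (ψ n)).map fun ω => (Y (ψ n) ω, Z (ψ n) ω)) :=
      htYZ.subset (by rintro _ ⟨n, rfl⟩; exact ⟨ψ n, rfl⟩)
    obtain ⟨θ, hθ, ν, hν, h⟩ := exists_subseq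
      (fun n => (P (ψ n)).map fun ω => (Y (ψ n) ω, Z (ψ n) ω)) (fun n => hpYZ (ψ n)) ht'
    have hint : ∀ f : E × E' → ℝ, Continuous f → (∃ C, ∀ x, |f x| ≤ C) →
        Tendsto (fun n => ∫ ω, f (Y (ψ (θ n)) ω, Z (ψ (θ n)) ω) ∂(P (ψ (θ n)))) atTop
          (𝓝 (∫ x, f x ∂ν)) := by
      intro f hf hC
      refine (h f hf hC).congr fun n => ?_
      exact integral_map (hmeas _).aemeasurable hf.aestronglyMeasurable
    refine ⟨θ, hθ, ν, hν, ?_, ?_, hint⟩
    · have hν1 : IsProbabilityMeasure (ν.map Prod.fst) :=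
        Measure.isProbabilityMeasure_map measurable_fst.aemeasurable
      have h1 : Tendsto (fun n => toPM ((P (ψ (θ n))).map (Y (ψ (θ n)))) (hpY _)) atTop
          (𝓝 (toPM (ν.map Prod.fst) hν1)) := by
        refine tendsto_pm _ _ _ _ fun f hf hC => ?_
        obtain ⟨C, hC⟩ := hC
        have h2 := hint (fun p => f p.1) (hf.comp continuous_fst) ⟨C, fun x => hC x.1⟩
        rw [integral_map measurable_fst.aemeasurable hf.aestronglyMeasurable]
        refine h2.congr fun n => ?_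
        exact (integral_map (hY _).aemeasurable hf.aestronglyMeasurable).symm
      have h2 := hlimY.comp (hψ.comp hθ).tendsto_atTop
      have h3 := tendsto_nhds_unique h1 h2
      exact congrArg (fun q : ProbabilityMeasure E => (q : Measure E)) h3
    · have h1 := support_rv (fun n => Ω (ψ (θ n))) (fun n => P (ψ (θ n))) (fun n => hP _)
        (fun n ω => (Y (ψ (θ n)) ω, Z (ψ (θ n)) ω)) (fun n => hmeas _) ν hint
        (fun n => univ) (by simp)
      filter_upwards [h1] with p hp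
      obtain ⟨ω, -, hω⟩ := hp
      refine ⟨ψ ∘ θ, hψ.comp hθ, ω, ?_, ?_⟩
      · exact (continuous_fst.tendsto p).comp hω
      · exact (continuous_snd.tendsto p).comp hω
  -- the limit does not depend on the subsequence
  have hgraph : ∀ ν : Measure (E × E'), IsProbabilityMeasure ν → ν.map Prod.fst = μ →
      (∀ᵐ p ∂ν, ∃ (k : ℕ → ℕ) (_ : StrictMono k) (ω : ∀ j, Ω (k j)),
        Tendsto (fun j => Y (k j) (ω j)) atTop (𝓝 p.1) ∧
        Tendsto (fun j => Z (k j) (ω j)) atTop (𝓝 p.2)) → ∀ᵐ p ∂ν, Good p.1 p.2 := by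
    intro ν _ hfst hp
    have h1 : ∀ᵐ p ∂ν, ∃ z, Good p.1 z := by
      rw [← hfst] at hdet
      exact ae_of_ae_map measurable_fst.aemeasurable hdet
    filter_upwards [h1, hp] with p h1 h2
    obtain ⟨z, hz⟩ := h1
    obtain ⟨k, hk, ω, h3, h4⟩ := h2
    have := tendsto_nhds_unique (hz k hk ω h3) h4
    rwa [← this]
  obtain ⟨θ0, hθ0, ν0, hν0, hfst0, hp0, -⟩ := hsub id strictMono_id
  refine ⟨ν0, hν0, hfst0, hp0, fun f hf hC => ?_⟩
  refine tendsto_of_subseq_tendsto fun ψ hψ => ?_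
  obtain ⟨σ, hσ⟩ := strictMono_subseq_of_tendsto_atTop hψ
  obtain ⟨θ, hθ, ν, hν, hfst, hp, h⟩ := hsub (ψ ∘ σ) hσ.2
  have heq : ν = ν0 := by
    have : Nonempty E := hne.map (Y 0)
    have hG0 := (hgraph ν0 hν0 hfst0 hp0).and hp0
    have hG := (hgraph ν hν hfst hp).and hp
    refine graph_unique ν ν0 {p | Good p.1 p.2 ∧ ∃ (k : ℕ → ℕ) (_ : StrictMono k)
      (ω : ∀ j, Ω (k j)), Tendsto (fun j => Y (k j) (ω j)) atTop (𝓝 p.1) ∧
        Tendsto (fun j => Z (k j) (ω j)) atTop (𝓝 p.2)} ?_ hG hG0 ?_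
    · rw [Measure.fst, Measure.fst, hfst, hfst0]
    · rintro z z' y ⟨-, k, hk, ω, h1, h2⟩ ⟨hz', -⟩
      exact tendsto_nhds_unique h2 (hz' k hk ω h1)
  refine ⟨σ ∘ θ, ?_⟩
  rw [← heq]
  exact h f hf hC

end Vale.Agent.P153.R2.UNIQ
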