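import Vale.Agent.P153.R2.UNIQ.Cap
import Vale.Agent.P153.R2.UNIQ.Ecm

/-!
# P153 / R2 / UNIQ : probability tools of the assembly
-/

open MeasureTheory ProbabilityTheory Filter Topology Set
open scoped NNReal ENNReal

namespace Vale.Agent.P153.R2.UNIQ

open Vale.Agent.P153.R2.Final Vale.Agent.P153.R2.C1

/-! ### finite uniform laws -/

section Unif

variable {α : Type*} [MeasurableSpace α] [MeasurableSingletonClass α]

theorem map_uniformOn (s : Set α) (hs : s.Finite) :
    (uniformOn (univ : Set s)).map (Subtype.val : s → α) = uniformOn s := by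
  have hsm : MeasurableSet s := hs.measurableSet
  have hemb : MeasurableEmbedding (Subtype.val : s → α) := MeasurableEmbedding.subtype_coe hsm
  have hfin : Finite s := hs
  have hcount : ∀ t : Set α, Measure.count ((Subtype.val : s → α) ⁻¹' t) =
      Measure.count (s ∩ t) := by
    intro t
    rw [Measure.count_apply_finite' (Set.toFinite _) (Set.toFinite _).measurableSet,
      Measure.count_apply_finite' (hs.subset inter_subset_left)
        (hs.subset inter_subset_left).measurableSet]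
    congr 1
    rw [← Set.ncard_eq_toFinset_card _ _, ← Set.ncard_eq_toFinset_card _ _,
      ← Set.ncard_image_of_injective _ Subtype.val_injective, Subtype.image_preimage_coe]
  ext t ht
  rw [Measure.map_apply hemb.measurable ht, uniformOn, uniformOn,
    cond_apply MeasurableSet.univ, cond_apply hsm, univ_inter, hcount]
  congr 2
  have := hcount univ
  rwa [preimage_univ, inter_univ] at this

theorem integral_uniformOn (s : Set α) (hs : s.Finite) (F : α → ℝ) :
    ∫ x, F x ∂(uniformOn s) = ∫ x : s, F x ∂(uniformOn (univ : Set s)) := by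
  rw [← map_uniformOn s hs]
  exact (MeasurableEmbedding.subtype_coe hs.measurableSet).integral_map F

theorem measure_uniformOn (s : Set α) (hs : s.Finite) (A : Set α) :
    uniformOn s A = uniformOn (univ : Set s) {x : s | (x : α) ∈ A} := by
  rw [← map_uniformOn s hs, (MeasurableEmbedding.subtype_coe hs.measurableSet).map_apply]
  rfl

theorem prob_uniformOn (s : Set α) (hs : s.Finite) (hn : s.Nonempty) :
    IsProbabilityMeasure (uniformOn (univ : Set s)) := by
  have : Finite s := hs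
  have : Nonempty s := hn.to_subtype
  exact uniformOn_isProbabilityMeasure Set.finite_univ univ_nonempty

end Unif

/-! ### Polish versions -/

theorem ecm_polish {E E' : Type*} [TopologicalSpace E] [PolishSpace E] [MeasurableSpace E]
    [BorelSpace E] [TopologicalSpace E'] [PolishSpace E'] [MeasurableSpace E'] [BorelSpace E']
    (Ω : ℕ → Type*) [∀ n, MeasurableSpace (Ω n)] (P : ∀ n, Measure (Ω n))
    (hP : ∀ n, IsProbabilityMeasure (P n))
    (Y : ∀ n, Ω n → E) (hY : ∀ n, Measurable (Y n)) (Z : ∀ n, Ω n → E')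
    (hZ : ∀ n, Measurable (Z n)) (μ : Measure E) [IsProbabilityMeasure μ]
    (hlim : ∀ f : E → ℝ, Continuous f → (∃ C, ∀ x, |f x| ≤ C) →
      Tendsto (fun n => ∫ ω, f (Y n ω) ∂(P n)) atTop (𝓝 (∫ x, f x ∂μ)))
    (hdet : ∀ᵐ y ∂μ, ∃ z, ∀ k : ℕ → ℕ, StrictMono k → ∀ ω : ∀ j, Ω (k j),
      Tendsto (fun j => Y (k j) (ω j)) atTop (𝓝 y) →
      Tendsto (fun j => Z (k j) (ω j)) atTop (𝓝 z)) :
    ∃ (ν : Measure (E × E')) (_ : IsProbabilityMeasure ν), ν.map Prod.fst = μ ∧
      (∀ᵐ p ∂ν, ∃ (k : ℕ → ℕ) (_ : StrictMono k) (ω : ∀ j, Ω (k j)),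
        Tendsto (fun j => Y (k j) (ω j)) atTop (𝓝 p.1) ∧
        Tendsto (fun j => Z (k j) (ω j)) atTop (𝓝 p.2)) ∧
      ∀ f : E × E' → ℝ, Continuous f → (∃ C, ∀ x, |f x| ≤ C) →
        Tendsto (fun n => ∫ ω, f (Y n ω, Z n ω) ∂(P n)) atTop (𝓝 (∫ x, f x ∂ν)) := by
  letI := TopologicalSpace.upgradeIsCompletelyMetrizable E
  letI := TopologicalSpace.upgradeIsCompletelyMetrizable E'
  exact ecm Ω P hP Y hY Z hZ μ hlim hdet

/-- laws which converge weakly are tight -/
theorem tight_of_lim {E : Type*} [TopologicalSpace E] [PolishSpace E] [MeasurableSpace E]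
    [BorelSpace E] (μ : ℕ → Measure E) (hμ : ∀ n, IsProbabilityMeasure (μ n)) (ν : Measure E)
    (hν : IsProbabilityMeasure ν)
    (h : ∀ f : E → ℝ, Continuous f → (∃ C, ∀ x, |f x| ≤ C) →
      Tendsto (fun n => ∫ x, f x ∂(μ n)) atTop (𝓝 (∫ x, f x ∂ν))) :
    IsTightMeasureSet (range μ) := by
  letI := TopologicalSpace.upgradeIsCompletelyMetrizable E
  have hlim := tendsto_pm μ hμ ν hν h
  have hc : IsCompact (closure (range fun n => toPM (μ n) (hμ n))) :=
    hlim.isCompact_insert_range.closure_of_subset (subset_insert _ _)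
  have h1 := isTightMeasureSet_of_isCompact_closure hc
  refine h1.subset ?_
  rintro _ ⟨n, rfl⟩
  exact ⟨_, ⟨n, rfl⟩, rfl⟩

/-- weak limits are unique -/
theorem lim_unique {E : Type*} [TopologicalSpace E] [PolishSpace E] [MeasurableSpace E]
    [BorelSpace E] (ν ν' : Measure E) (hν : IsProbabilityMeasure ν)
    (hν' : IsProbabilityMeasure ν')
    (h : ∀ f : E → ℝ, Continuous f → (∃ C, ∀ x, |f x| ≤ C) → ∫ x, f x ∂ν = ∫ x, f x ∂ν') :
    ν = ν' := by
  letI := TopologicalSpace.upgradeIsCompletelyMetrizable E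
  have h1 : Tendsto (fun _ : ℕ => toPM ν hν) atTop (𝓝 (toPM ν' hν')) :=
    tendsto_pm (fun _ => ν) (fun _ => hν) ν' hν' fun f hf hC => by
      rw [h f hf hC]; exact tendsto_const_nhds
  have h2 := tendsto_nhds_unique tendsto_const_nhds h1
  exact congrArg (fun q : ProbabilityMeasure E => (q : Measure E)) h2

/-- mass of open sets in weak limits -/
theorem open_le {E : Type*} [TopologicalSpace E] [PolishSpace E] [MeasurableSpace E]
    [BorelSpace E] (μ : ℕ → Measure E) (hμ : ∀ n, IsProbabilityMeasure (μ n)) (ν : Measure E)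
    (hν : IsProbabilityMeasure ν)
    (h : ∀ f : E → ℝ, Continuous f → (∃ C, ∀ x, |f x| ≤ C) →
      Tendsto (fun n => ∫ x, f x ∂(μ n)) atTop (𝓝 (∫ x, f x ∂ν))) {U : Set E} (hU : IsOpen U)
    {e : ℝ≥0∞} (he : ∀ᶠ n in atTop, μ n U ≤ e) : ν U ≤ e := by
  letI := TopologicalSpace.upgradeIsCompletelyMetrizable E
  have h1 := ProbabilityMeasure.le_liminf_measure_open_of_tendsto (tendsto_pm μ hμ ν hν h) hU
  refine h1.trans ?_
  exact liminf_le_of_frequently_le' he.frequently

/-! ### uniqueness of the trace -/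

theorem trace_unique {W : ℝ → ℝ} {γ γ' : ℝ → ℂ} (h : Final.IsSimpleTrace W γ)
    (h' : Final.IsSimpleTrace W γ') : ∀ t : ℝ, 0 ≤ t → γ t = γ' t := by
  intro t ht
  rcases ht.eq_or_lt with h0 | h0
  · rw [← h0, h.start, h'.start]
  have key : ∀ {γ γ' : ℝ → ℂ}, Final.IsSimpleTrace W γ → Final.IsSimpleTrace W γ' → ∀ s : ℝ,
      0 < s → ∃ s', 0 < s' ∧ s' ≤ s ∧ γ s = γ' s' := by
    intro γ γ' h h' s hs
    have h1 : γ s ∉ Final.loewnerDomain W s := by
      rw [h.domain_eq s hs.le]
      exact fun hcon => hcon.2 ⟨s, ⟨hs, le_rfl⟩, rfl⟩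
    rw [h'.domain_eq s hs.le] at h1
    have h2 : γ s ∈ γ' '' Ioc 0 s := by
      by_contra hcon
      exact h1 ⟨h.im_pos s hs, hcon⟩
    obtain ⟨s', hs', he⟩ := h2
    exact ⟨s', hs'.1, hs'.2, he.symm⟩
  obtain ⟨s, hs0, hst, he⟩ := key h h' t h0
  obtain ⟨s', hs'0, hs's, he'⟩ := key h' h s hs0
  have h1 : t = s' := h.inj (show t ∈ Ici 0 from ht) (show s' ∈ Ici 0 from hs'0.le)
    (he.trans he')
  have h2 : s = t := le_antisymm hst (h1.le.trans hs's)
  rw [he, h2]

end Vale.Agent.P153.R2.UNIQ
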