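import Vale.Agent.P153.R2.UNIQ.Graph

/-!
# P153 / R2 / UNIQ : the assembly of `Final.CurveLimit`
-/

open MeasureTheory ProbabilityTheory Filter Topology Set
open scoped NNReal ENNReal

set_option linter.unusedVariables false

namespace Vale.Agent.P153.R2.UNIQ

open Vale.Agent.P153.R2.Final Vale.Agent.P153.R2.C1

theorem polish_prod {A B : Type*} [TopologicalSpace A] [PolishSpace A] [TopologicalSpace B]
    [PolishSpace B] : PolishSpace (A × B) := inferInstance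

section

variable [MeasurableSpace C(unitInterval, ℂ)] [BorelSpace C(unitInterval, ℂ)]
  [MeasurableSpace C(ℝ≥0, ℝ)] [BorelSpace C(ℝ≥0, ℝ)]

/-- the subsequential limits in one marked Jordan domain -/
theorem sub_limit (huinj : I_uinj) (hrado : I_rado) (hfin : I_fin) (hbdd : I_bdd) (hdrv : I_drv)
    (hcross : I_cross) (hend : I_end) (hbess : I_bess)
    (Φ : (ℝ × ℝ) ≃ₜ (ℝ × ℝ)) (ψ : ℂ → ℂ) (hψ : IsUniformizer Φ ψ)
    (δ : ℕ → ℝ) (N k : ℕ → ℕ) (p : ∀ n, ZMod (N n) → ℤ × ℤ) (S : ℕ → Finset Tri)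
    (hA : Approx Φ δ N k p S)
    (x : ∀ n : ℕ, Hg → C(unitInterval, ℂ))
    (hx : ∀ n, ∀ h ∈ Heights (p n) (k n) (S n), IsInterface (p n) (k n) (S n) (δ n) h (x n h)) :
    ∃ (θ : ℕ → ℕ) (_ : StrictMono θ)
      (ν : Measure ((C(unitInterval, ℂ) × C(ℝ≥0, ℝ)) × C(unitInterval, ℂ)))
      (_ : IsProbabilityMeasure ν), IsDrvLaw (ν.map fun q => q.1.2) ∧
      (∀ᵐ q ∂ν, Gr ψ (bpt Φ) q.2 q.1.2) ∧
      ∀ F : C(unitInterval, ℂ) → ℝ, Continuous F → (∃ M, ∀ y, |F y| ≤ M) → Inv F →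
        Tendsto (fun n => mean (law (p (θ n)) (k (θ n)) (S (θ n))) fun h => F (x (θ n) h)) atTop
          (𝓝 (∫ q, F q.2 ∂ν)) := by
  obtain ⟨R, hR⟩ := hbdd Φ δ N k p S hA
  obtain ⟨n₀, hn₀⟩ := eventually_atTop.1 hR
  have hsh : Tendsto (fun n : ℕ => n + n₀) atTop atTop := tendsto_add_atTop_nat n₀
  obtain ⟨θ, hθ, ν, hν, h1, h2, h3⟩ := sub_limit_aux huinj hrado hfin hdrv hcross hend hbess Φ ψ
    hψ _ _ _ _ _ (approx_sub hA hsh) R (fun n => hn₀ _ (Nat.le_add_left _ _))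
    (fun n => x (n + n₀)) (fun n => hx _)
  exact ⟨fun n => θ n + n₀, fun a b hab => Nat.add_lt_add_right (hθ hab) _, ν, hν, h1, h2, h3⟩

/-- the trace of the driver, as a measurable function of the driver -/
theorem exists_base (hunif : I_unif) (huinj : I_uinj) (hrado : I_rado) (hfin : I_fin)
    (hbdd : I_bdd) (hintf : I_intf) (hdrv : I_drv) (hcross : I_cross) (hend : I_end)
    (hbess : I_bess) (hexap : I_exap) :
    ∃ (ψ₀ : ℂ → ℂ) (b₀ : ℂ) (_ : DET.Uni ψ₀ b₀) (lam : Measure C(ℝ≥0, ℝ)) (_ : IsDrvLaw lam)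
      (f : C(ℝ≥0, ℝ) → C(unitInterval, ℂ)), Measurable f ∧ ∀ᵐ w ∂lam, Gr ψ₀ b₀ (f w) w := by
  classical
  obtain ⟨Φ, δ, N, k, p, S, hA⟩ := hexap
  obtain ⟨ψ, hψ⟩ := hunif Φ
  have hex : ∀ (n : ℕ) (h : Hg), ∃ c : C(unitInterval, ℂ), h ∈ Heights (p n) (k n) (S n) →
      IsInterface (p n) (k n) (S n) (δ n) h c := by
    intro n h
    by_cases hh : h ∈ Heights (p n) (k n) (S n)
    · obtain ⟨h1, h2, h3, h4, h5⟩ := hA.1 n
      obtain ⟨c, hc⟩ := hintf (N n) (k n) (p n) (S n) (δ n) h1 h2 h3 h4 h5 h hh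
      exact ⟨c, fun _ => hc⟩
    · exact ⟨ContinuousMap.const _ 0, fun hcon => absurd hcon hh⟩
  choose x hx using hex
  obtain ⟨θ, hθ, ν, hν, h1, h2, h3⟩ := sub_limit huinj hrado hfin hbdd hdrv hcross hend hbess Φ ψ
    hψ δ N k p S hA x hx
  let e : (C(unitInterval, ℂ) × C(ℝ≥0, ℝ)) × C(unitInterval, ℂ) →
      C(ℝ≥0, ℝ) × ((C(unitInterval, ℂ) × C(ℝ≥0, ℝ)) × C(unitInterval, ℂ)) := fun q => (q.1.2, q)
  have he : Continuous e := (continuous_snd.comp continuous_fst).prodMk continuous_id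
  have hinj : Function.Injective e := fun q q' hq => (Prod.ext_iff.1 hq).2
  have : PolishSpace ((C(unitInterval, ℂ) × C(ℝ≥0, ℝ)) × C(unitInterval, ℂ)) := polish_prod
  have hemb : MeasurableEmbedding e := he.measurableEmbedding hinj
  have hρ : IsProbabilityMeasure (ν.map e) :=
    Measure.isProbabilityMeasure_map he.measurable.aemeasurable
  have hae : ∀ᵐ p ∂(ν.map e), Gr ψ (bpt Φ) p.2.2 p.1 := by
    rw [hemb.ae_map_iff]
    exact h2
  obtain ⟨f, hf, hfR, -⟩ := graph_fun (ν.map e) (fun q => q.2) measurable_snd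
    (fun G w => Gr ψ (bpt Φ) G w) (fun G G' w h h' => h.unique h') hae
  have hfst : (ν.map e).fst = ν.map fun q => q.1.2 := by
    rw [Measure.fst, Measure.map_map measurable_fst he.measurable]
    rfl
  rw [hfst] at hfR
  exact ⟨ψ, bpt Φ, uni_of huinj hψ, _, h1, f, hf, hfR⟩

/-- the trace in another domain -/
theorem exists_G {ψ₀ : ℂ → ℂ} {b₀ : ℂ} (h₀ : DET.Uni ψ₀ b₀) (lam : Measure C(ℝ≥0, ℝ))
    (f : C(ℝ≥0, ℝ) → C(unitInterval, ℂ)) (hf : Measurable f) (hgr : ∀ᵐ w ∂lam, Gr ψ₀ b₀ (f w) w)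
    {ψ : ℂ → ℂ} {b : ℂ} (h : DET.Uni ψ b) :
    ∃ G : C(ℝ≥0, ℝ) → C(unitInterval, ℂ), AEMeasurable G lam ∧ ∀ᵐ w ∂lam, Gr ψ b (G w) w := by
  classical
  obtain ⟨A, hA, hAψ⟩ := exists_transport h₀.cont h₀.inj h.cont
  let G : C(ℝ≥0, ℝ) → C(unitInterval, ℂ) := fun w =>
    if hw : ∃ G, Gr ψ b G w then hw.choose else ContinuousMap.const _ 0
  have hG : ∀ᵐ w ∂lam, Gr ψ b (G w) w := by
    filter_upwards [hgr] with w hw
    obtain ⟨G', hG', -⟩ := gr_transport h₀ h hw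
    have hex : ∃ G, Gr ψ b G w := ⟨G', hG'⟩
    simp only [G, dif_pos hex]
    exact hex.choose_spec
  refine ⟨G, ?_, hG⟩
  set D : ℕ → unitInterval := TopologicalSpace.denseSeq unitInterval with hD
  let e : C(unitInterval, ℂ) → (ℕ → ℂ) := fun x n => x (D n)
  have he : Continuous e := continuous_pi fun n => continuous_eval_const (D n)
  have hinj : Function.Injective e := by
    intro w w' hw
    apply DFunLike.coe_injective
    refine (TopologicalSpace.denseRange_denseSeq unitInterval).equalizer w.continuous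
      w'.continuous ?_
    funext n
    exact congrFun hw n
  have hemb : MeasurableEmbedding e := he.measurableEmbedding hinj
  obtain ⟨E, hE, hEe⟩ := hemb.exists_measurable_extend (measurable_id (α := C(unitInterval, ℂ)))
    (fun _ => inferInstance)
  let u : C(ℝ≥0, ℝ) → (ℕ → ℂ) := fun w n => if (D n : ℝ) < 1 then A (f w (D n)) else b
  have hu : Measurable u := by
    refine measurable_pi_iff.2 fun n => ?_
    by_cases hn : (D n : ℝ) < 1
    · have : (fun w => u w n) = fun w => A (f w (D n)) := by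
        funext w; simp only [u, if_pos hn]
      rw [this]
      exact hA.comp ((continuous_eval_const (D n)).measurable.comp hf)
    · have : (fun w => u w n) = fun w => b := by
        funext w; simp only [u, if_neg hn]
      rw [this]
      exact measurable_const
  refine ⟨fun w => E (u w), hE.comp hu, ?_⟩
  filter_upwards [hgr, hG] with w hw hGw
  obtain ⟨G', hG', hpt⟩ := gr_transport h₀ h hw
  have h1 : G w = G' := hGw.unique hG'
  have h2 : e (G w) = u w := by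
    funext n
    simp only [e, u]
    by_cases hn : (D n : ℝ) < 1
    · rw [if_pos hn, h1]
      obtain ⟨z, hz, hz1, hz2⟩ := hpt (D n) hn
      rw [hz1, hAψ z hz, hz2]
    · rw [if_neg hn, h1]
      have : D n = 1 := Subtype.ext (le_antisymm (D n).2.2 (not_lt.1 hn))
      rw [this, hG'.1]
  rw [← h2]
  exact (congrFun hEe (G w)).symm

/-- convergence of the whole sequence -/
theorem conv_main (huinj : I_uinj) (hrado : I_rado) (hfin : I_fin) (hbdd : I_bdd) (hdrv : I_drv)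
    (hcross : I_cross) (hend : I_end) (hbess : I_bess)
    (Φ : (ℝ × ℝ) ≃ₜ (ℝ × ℝ)) (ψ : ℂ → ℂ) (hψ : IsUniformizer Φ ψ)
    (lam : Measure C(ℝ≥0, ℝ)) (hlam : IsDrvLaw lam) (G : C(ℝ≥0, ℝ) → C(unitInterval, ℂ))
    (hGm : AEMeasurable G lam) (hG : ∀ᵐ w ∂lam, Gr ψ (bpt Φ) (G w) w)
    (δ : ℕ → ℝ) (N k : ℕ → ℕ) (p : ∀ n, ZMod (N n) → ℤ × ℤ) (S : ℕ → Finset Tri)
    (hA : Approx Φ δ N k p S)
    (x : ∀ n : ℕ, Hg → C(unitInterval, ℂ))
    (hx : ∀ n, ∀ h ∈ Heights (p n) (k n) (S n), IsInterface (p n) (k n) (S n) (δ n) h (x n h))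
    (F : C(unitInterval, ℂ) → ℝ) (hF : Continuous F) (hM : ∃ M, ∀ y, |F y| ≤ M) (hI : Inv F) :
    Tendsto (fun n => mean (law (p n) (k n) (S n)) fun h => F (x n h)) atTop
      (𝓝 (∫ w, F (G w) ∂lam)) := by
  refine tendsto_of_subseq_tendsto fun ns hns => ?_
  obtain ⟨θ, hθ, ν, hν, h1, h2, h3⟩ := sub_limit huinj hrado hfin hbdd hdrv hcross hend hbess Φ ψ
    hψ _ _ _ _ _ (approx_sub hA hns) (fun n => x (ns n)) (fun n => hx _)
  refine ⟨θ, ?_⟩
  have hm : Measurable fun q : (C(unitInterval, ℂ) × C(ℝ≥0, ℝ)) × C(unitInterval, ℂ) => q.1.2 :=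
    measurable_snd.comp measurable_fst
  have e1 : (ν.map fun q => q.1.2) = lam := drv_unique h1 hlam
  have h4 : ∀ᵐ q ∂ν, Gr ψ (bpt Φ) (G q.1.2) q.1.2 := by
    rw [← e1] at hG
    exact ae_of_ae_map hm.aemeasurable hG
  have e2 : ∫ q, F q.2 ∂ν = ∫ w, F (G w) ∂lam := by
    have e3 : ∫ q, F q.2 ∂ν = ∫ q, F (G q.1.2) ∂ν := by
      refine integral_congr_ae ?_
      filter_upwards [h2, h4] with q hq hq'
      rw [hq.unique hq']
    rw [e3, ← e1]
    symm
    refine integral_map hm.aemeasurable ?_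
    rw [e1]
    exact (hF.measurable.comp_aemeasurable hGm).aestronglyMeasurable
  rw [← e2]
  exact h3 F hF hM hI

end

theorem s_assem : S_assem := by
  intro hunif huinj hrado hfin hbdd hintf hdrv hcross hend hbess hexap
  classical
  let _ : MeasurableSpace C(unitInterval, ℂ) := borel _
  have _ : BorelSpace C(unitInterval, ℂ) := ⟨rfl⟩
  let _ : MeasurableSpace C(ℝ≥0, ℝ) := borel _
  have _ : BorelSpace C(ℝ≥0, ℝ) := ⟨rfl⟩
  obtain ⟨ψ₀, b₀, h₀, lam, hlam, f, hf, hgr⟩ := exists_base hunif huinj hrado hfin hbdd hintf hdrv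
    hcross hend hbess hexap
  let γ : C(ℝ≥0, ℝ) → ℝ → ℂ := fun w =>
    if hw : ∃ γ, Final.IsSimpleTrace (fun t => w t.toNNReal) γ then hw.choose else fun _ => 0
  have hγ : ∀ᵐ w ∂lam, Final.IsSimpleTrace (fun t => w t.toNNReal) (γ w) := by
    filter_upwards [hgr] with w hw
    obtain ⟨-, γ', hγ', -⟩ := hw
    have hex : ∃ γ, Final.IsSimpleTrace (fun t => w t.toNNReal) γ := ⟨γ', hγ'⟩
    simp only [γ, dif_pos hex]
    exact hex.choose_spec
  refine ⟨C(ℝ≥0, ℝ), inferInstance, lam, hlam.prob, γ, ?_, ?_⟩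
  · refine ⟨fun t w => w t / 2, hlam, ?_⟩
    filter_upwards [hγ] with w hw
    have h4 : √(4 : ℝ) = 2 := by
      rw [show (4 : ℝ) = 2 ^ 2 by norm_num]
      exact Real.sqrt_sq (by norm_num)
    have : (fun t : ℝ => √4 * (w t.toNNReal / 2)) = fun t => w t.toNNReal := by
      funext t
      rw [h4]; ring
    rw [this]
    exact hw
  · intro Φ
    refine ⟨hunif Φ, fun ψ hψ => ?_⟩
    obtain ⟨G, hGm, hG⟩ := exists_G h₀ lam f hf hgr (uni_of huinj hψ)
    refine ⟨G, ?_, ?_, ?_⟩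
    · filter_upwards [hγ, hG] with w hw hGw
      obtain ⟨h1, γ', hγ', h2⟩ := hGw
      refine ⟨h1, fun t ht => ?_⟩
      rw [h2 t ht]
      congr 1
      exact trace_unique hγ' hw _ (div_nonneg t.2.1 (by linarith))
    · intro F hF
      exact hF.measurable.comp_aemeasurable hGm
    · intro δ N k p S hA
      refine ⟨fun n h hh => ?_, fun x hx F hF hM hI => ?_⟩
      · obtain ⟨h1, h2, h3, h4, h5⟩ := hA.1 n
        exact hintf (N n) (k n) (p n) (S n) (δ n) h1 h2 h3 h4 h5 h hh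
      · exact conv_main huinj hrado hfin hbdd hdrv hcross hend hbess Φ ψ hψ lam hlam G hGm hG
          δ N k p S hA x hx F hF hM hI

end Vale.Agent.P153.R2.UNIQ

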