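import Vale.Agent.P153.R2.UNIQ.Det

/-!
# P153 / R2 / UNIQ : existence of the (truncated) capacity parametrisation
-/

open Set Filter Topology

namespace Vale.Agent.P153.R2.UNIQ

open Vale.Agent.P153.R2.ARCX

lemma frac_lt {a b : ℝ} (ha : 0 ≤ a) (h : a < b) : a / (1 + a) < b / (1 + b) := by
  rw [div_lt_div_iff₀ (by linarith) (by linarith)]
  nlinarith

lemma frac_le {a b : ℝ} (ha : 0 ≤ a) (h : a ≤ b) : a / (1 + a) ≤ b / (1 + b) := by
  rcases h.eq_or_lt with h | h
  · rw [h]
  · exact (frac_lt ha h).le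

theorem exists_cap {ψ : ℂ → ℂ} {b : ℂ} {X : C(unitInterval, ℂ)} {x : ℝ → ℂ} {c : ℝ → ℝ}
    {w : C(NNReal, ℝ)} {T₀ T₁ ε : ℝ} (h : Disc ψ b X x c w T₀ T₁ ε) :
    ∃ r : unitInterval ≃o unitInterval, ∀ t : unitInterval, (t : ℝ) ≤ T₀ →
      (r t : ℝ) = c t / (1 + c t) := by
  have hT0 := h.pos
  have hT01 : T₀ < 1 := h.lt.trans_le h.le
  have hsg := h.sgen
  have hmem : ∀ t : unitInterval, min (t : ℝ) T₀ ∈ Ico 0 T₁ := fun t =>
    ⟨le_min t.2.1 hT0.le, (min_le_right _ _).trans_lt h.lt⟩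
  have hc0 : ∀ s ∈ Ico 0 T₁, 0 ≤ c s := by
    intro s hs
    have := hsg.mono.monotoneOn ⟨le_rfl, hsg.pos⟩ hs hs.1
    rwa [hsg.c_zero] at this
  have hT0m : T₀ ∈ Ico 0 T₁ := ⟨hT0.le, h.lt⟩
  set u : ℝ := c T₀ / (1 + c T₀) with hu
  have hu0 : 0 ≤ u := div_nonneg (hc0 _ hT0m) (by linarith [hc0 _ hT0m])
  have hu1 : u < 1 := by
    rw [hu, div_lt_one (by linarith [hc0 _ hT0m])]
    linarith
  set f : unitInterval → ℝ := fun t => c (min (t : ℝ) T₀) / (1 + c (min (t : ℝ) T₀)) +
    (1 - u) * (max 0 ((t : ℝ) - T₀) / (1 - T₀)) with hf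
  have hfc : Continuous f := by
    have h1 : Continuous fun t : unitInterval => c (min (t : ℝ) T₀) := by
      refine hsg.contc.comp_continuous (continuous_subtype_val.min continuous_const) hmem
    refine (h1.div (continuous_const.add h1) fun t => ?_).add ?_
    · have h2 := hc0 _ (hmem t)
      have h3 : (0 : ℝ) < 1 + c (min (t : ℝ) T₀) := by linarith
      exact h3.ne'
    · exact continuous_const.mul ((continuous_const.max (continuous_subtype_val.sub
        continuous_const)).div_const _)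
  have hfm : StrictMono f := by
    intro s t hst
    have hst' : (s : ℝ) < t := hst
    have h2 : 0 < 1 - T₀ := by linarith
    have h3 : 0 < 1 - u := by linarith
    by_cases ht : (t : ℝ) ≤ T₀
    · have e1 : min (t : ℝ) T₀ = t := min_eq_left ht
      have e2 : min (s : ℝ) T₀ = s := min_eq_left (hst'.le.trans ht)
      have e3 : max 0 ((t : ℝ) - T₀) = 0 := max_eq_left (by linarith)
      have e4 : max 0 ((s : ℝ) - T₀) = 0 := max_eq_left (by linarith)
      simp only [hf, e1, e2, e3, e4]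
      have h4 : c s < c t := hsg.mono ⟨s.2.1, by linarith [h.lt]⟩ ⟨t.2.1, by linarith [h.lt]⟩ hst'
      have h5 := frac_lt (hc0 s ⟨s.2.1, by linarith [h.lt]⟩) h4
      linarith
    · rw [not_le] at ht
      have h4 : c (min (s : ℝ) T₀) ≤ c (min (t : ℝ) T₀) :=
        hsg.mono.monotoneOn (hmem s) (hmem t) (min_le_min_right _ hst'.le)
      have h5 := frac_le (hc0 _ (hmem s)) h4
      have h6 : max 0 ((s : ℝ) - T₀) < max 0 ((t : ℝ) - T₀) := by
        rw [max_eq_right (by linarith : (0 : ℝ) ≤ (t : ℝ) - T₀)]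
        exact max_lt (by linarith) (by linarith)
      have h7 : max 0 ((s : ℝ) - T₀) / (1 - T₀) < max 0 ((t : ℝ) - T₀) / (1 - T₀) :=
        div_lt_div_of_pos_right h6 h2
      have h8 := mul_lt_mul_of_pos_left h7 h3
      simp only [hf]
      linarith
  have hf0 : f 0 = 0 := by
    simp only [hf, Set.Icc.coe_zero]
    rw [min_eq_left hT0.le, hsg.c_zero, max_eq_left (by linarith)]
    simp
  have hf1 : f 1 = 1 := by
    simp only [hf, Set.Icc.coe_one]
    rw [min_eq_right hT01.le, max_eq_right (by linarith), div_self (by linarith)]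
    rw [← hu]; ring
  have hfI : ∀ t, f t ∈ Icc (0 : ℝ) 1 := fun t =>
    ⟨by rw [← hf0]; exact hfm.monotone t.2.1, by rw [← hf1]; exact hfm.monotone t.2.2⟩
  let F : unitInterval → unitInterval := fun t => ⟨f t, hfI t⟩
  have hFm : StrictMono F := fun s t hst => hfm hst
  have hFc : Continuous F := hfc.subtype_mk _
  have hFs : Function.Surjective F := by
    intro v
    have h1 := intermediate_value_univ (0 : unitInterval) 1 hFc
    have e0 : F 0 = 0 := Subtype.ext hf0
    have e1 : F 1 = 1 := Subtype.ext hf1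
    rw [e0, e1] at h1
    exact h1 ⟨v.2.1, v.2.2⟩
  refine ⟨hFm.orderIsoOfSurjective F hFs, fun t ht => ?_⟩
  change f t = _
  simp only [hf]
  rw [min_eq_left ht, max_eq_left (by linarith : (t : ℝ) - T₀ ≤ 0)]
  simp

end Vale.Agent.P153.R2.UNIQ
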