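import Vale.Agent.P153.R2.UNIQ.Inputs
import Vale.Agent.P153.R2.DET.Thm

/-!
# P153 / R2 / UNIQ : the deterministic limit theorem with truncated drivers

Adapted from `R2/DET/Main.lean` (helper348): the curve `Xn n` generates the chain of its driver only
up to a time after which it stays close to the end point.
-/

open Set Filter Topology Metric Vale.Agent.P164 Bornology
open scoped NNReal

namespace Vale.Agent.P153.R2.UNIQ

open Vale.Agent.P153.R2.ARCX Vale.Agent.P153.R2.DET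

theorem gen_restrict {W : ℝ → ℝ} {x : ℝ → ℂ} {c : ℝ → ℝ} {S T : ℝ} (h : Gen W x c S)
    (hT : 0 < T) (hTS : T ≤ S) : Gen W x c T := by
  have hsub : Ico 0 T ⊆ Ico 0 S := Ico_subset_Ico_right hTS
  exact ⟨hT, h.cont.mono hsub, fun t ht => h.im_nonneg t (hsub ht), h.start, h.contc.mono hsub,
    h.mono.mono hsub, h.c_zero, fun t ht => h.dom t (hsub ht)⟩

theorem arc_restrict {W : ℝ → ℝ} {x : ℝ → ℂ} {c : ℝ → ℝ} {S T : ℝ} {γ : ℝ → ℂ}
    (h : Arc W x c S γ) (hTS : T ≤ S) : Arc W x c T γ := by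
  have hsub : Ico 0 T ⊆ Ico 0 S := Ico_subset_Ico_right hTS
  have hsub' : c '' Ico 0 T ⊆ c '' Ico 0 S := image_mono hsub
  refine ⟨h.cont.mono hsub', h.inj.mono hsub', fun s hs => h.im_pos s (hsub' hs), h.start,
    fun s hs => h.dom s (hsub' hs), ?_, fun t ht => h.mem t (hsub ht)⟩
  intro s hs
  obtain ⟨t, ht, hct, hfirst, hx⟩ := h.first s (hsub' hs)
  obtain ⟨t1, ht1, hct1⟩ := hs
  refine ⟨t, ⟨ht.1, ?_⟩, hct, hfirst, hx⟩
  by_contra hcon
  rw [not_lt] at hcon
  have := hfirst t1 ⟨ht1.1, ht1.2.trans_le hcon⟩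
  exact absurd hct1 this.ne

theorem gen_glue {W : ℝ → ℝ} {x : ℝ → ℂ} {c : ℝ → ℝ} {T : ℝ} (hT : 0 < T)
    (h : ∀ T' ∈ Ioo 0 T, ∃ c', Gen W x c' T' ∧ ∀ t ∈ Ico 0 T', c t = c' t) : Gen W x c T := by
  have key : ∀ t ∈ Ico 0 T, ∃ T' ∈ Ioo 0 T, t < T' := fun t ht => by
    obtain ⟨T', h1, h2⟩ := exists_between ht.2
    exact ⟨T', ⟨ht.1.trans_lt h1, h2⟩, h1⟩
  have key2 : ∀ t ∈ Ico 0 T, ∃ T' ∈ Ioo 0 T, t < T' ∧ ∃ c', Gen W x c' T' ∧
      ∀ t ∈ Ico 0 T', c t = c' t := fun t ht => by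
    obtain ⟨T', h1, h2⟩ := key t ht
    obtain ⟨c', h3, h4⟩ := h T' h1
    exact ⟨T', h1, h2, c', h3, h4⟩
  have hnb : ∀ t ∈ Ico 0 T, ∀ T' ∈ Ioo 0 T, t < T' → Ico 0 T' ∈ 𝓝[Ico 0 T] t := by
    intro t ht T' hT' htT'
    have : Iio T' ∈ 𝓝 t := Iio_mem_nhds htT'
    rw [mem_nhdsWithin_iff_exists_mem_nhds_inter]
    exact ⟨Iio T', this, fun u hu => ⟨hu.2.1, hu.1⟩⟩
  obtain ⟨T0, hT0, h0T, c0, hg0, hc0⟩ := key2 0 ⟨le_rfl, hT⟩
  refine ⟨hT, ?_, ?_, hg0.start, ?_, ?_, ?_, ?_⟩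
  · intro t ht
    obtain ⟨T', hT', htT', c', hg, hc⟩ := key2 t ht
    exact (hg.cont t ⟨ht.1, htT'⟩).mono_of_mem_nhdsWithin (hnb t ht T' hT' htT')
  · intro t ht
    obtain ⟨T', hT', htT', c', hg, hc⟩ := key2 t ht
    exact hg.im_nonneg t ⟨ht.1, htT'⟩
  · intro t ht
    obtain ⟨T', hT', htT', c', hg, hc⟩ := key2 t ht
    refine ContinuousWithinAt.mono_of_mem_nhdsWithin ?_ (hnb t ht T' hT' htT')
    exact (hg.contc t ⟨ht.1, htT'⟩).congr hc (hc t ⟨ht.1, htT'⟩)
  · intro s hs t ht hst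
    obtain ⟨T', hT', htT', c', hg, hc⟩ := key2 t ht
    rw [hc s ⟨hs.1, hst.trans_lt htT'⟩, hc t ⟨ht.1, htT'⟩]
    exact hg.mono ⟨hs.1, hst.trans_lt htT'⟩ ⟨ht.1, htT'⟩ hst
  · rw [hc0 0 ⟨le_rfl, h0T⟩]; exact hg0.c_zero
  · intro t ht
    obtain ⟨T', hT', htT', c', hg, hc⟩ := key2 t ht
    rw [hc t ⟨ht.1, htT'⟩]
    exact hg.dom t ⟨ht.1, htT'⟩

theorem det_tr (ψn : ℕ → ℂ → ℂ) (ψ : ℂ → ℂ) (bn : ℕ → ℂ) (b : ℂ) (wn : ℕ → C(ℝ≥0, ℝ))
    (w : C(ℝ≥0, ℝ)) (Xn Gn : ℕ → C(unitInterval, ℂ)) (η : C(unitInterval, ℂ)) (xs : ℕ → ℝ → ℂ)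
    (cs : ℕ → ℝ → ℝ) (T0 T1 ε : ℕ → ℝ) (hψ : Uni ψ b) (hu : TendstoUniformlyOn ψn ψ atTop HC)
    (hbn : Tendsto bn atTop (𝓝 b)) (hε : Tendsto ε atTop (𝓝 0))
    (hd : ∀ n : ℕ, Disc (ψn n) (bn n) (Xn n) (xs n) (cs n) (wn n) (T0 n) (T1 n) (ε n))
    (rs : ∀ n, unitInterval ≃o unitInterval) (hXG : ∀ n t, Gn n (rs n t) = Xn n t)
    (hXr : ∀ n (t : unitInterval), (t : ℝ) ≤ T0 n → (rs n t : ℝ) = cs n t / (1 + cs n t))
    (hw : Tendsto wn atTop (𝓝 w)) (hX : Tendsto Xn atTop (𝓝 η))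
    (hend : ∀ s t : unitInterval, s ≤ t → η s = b → η t = b)
    (hR : NoSwallowR fun t => w t.toNNReal) (hH : NoSwallowH fun t => w t.toNNReal) :
    ∃ (γ : ℝ → ℂ) (G : C(unitInterval, ℂ)), Final.IsSimpleTrace (fun t => w t.toNNReal) γ ∧
      G 1 = b ∧ (∀ t : unitInterval, (t : ℝ) < 1 → G t = ψ (γ (t / (1 - t)))) ∧
      Tendsto Gn atTop (𝓝 G) := by
  set Wn : ℕ → ℝ → ℝ := fun n t => wn n t.toNNReal with hWndef
  set W : ℝ → ℝ := fun t => w t.toNNReal with hWdef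
  have hWnc : ∀ n, Continuous (Wn n) := fun n => (wn n).continuous.comp continuous_real_toNNReal
  have hWc : Continuous W := w.continuous.comp continuous_real_toNNReal
  have hWn : ∀ t : ℝ, TendstoUniformlyOn Wn W atTop (Icc 0 t) := by
    intro t
    have h1 := (ContinuousMap.tendsto_iff_forall_isCompact_tendstoUniformlyOn.1 hw)
      (Icc 0 t.toNNReal) isCompact_Icc
    rw [Metric.tendstoUniformlyOn_iff] at h1 ⊢
    intro e he
    filter_upwards [h1 e he] with n hn u hu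
    exact hn u.toNNReal ⟨bot_le, Real.toNNReal_le_toNNReal hu.2⟩
  have hη1 : η 1 = b := by
    have h1 : Tendsto (fun n => Xn n 1) atTop (𝓝 (η 1)) :=
      ((continuous_eval_const (1 : unitInterval)).tendsto η).comp hX
    have h2 : Tendsto (fun n => dist (Xn n 1) (bn n)) atTop (𝓝 0) := by
      refine squeeze_zero (fun _ => dist_nonneg) (fun n => (hd n).near 1 ?_) hε
      exact ((hd n).lt.le.trans (hd n).le)
    exact tendsto_nhds_unique h1 ((tendsto_iff_of_dist h2).2 hbn)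
  have hrm : ∀ n, StrictMono (rs n) := fun n => (rs n).strictMono
  have hrs : ∀ n, Function.Surjective (rs n) := fun n => (rs n).surjective
  set e : ℝ → unitInterval := projIcc 0 1 zero_le_one with he
  have hec : Continuous e := continuous_projIcc
  have hee : ∀ t (h0 : 0 ≤ t) (h1 : t ≤ 1), e t = ⟨t, h0, h1⟩ := fun t h0 h1 =>
    projIcc_of_mem zero_le_one ⟨h0, h1⟩
  have heI : ∀ t : unitInterval, e t = t := fun t => projIcc_val _ _
  -- the first time at which the limit reaches `b`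
  set S : Set ℝ := {t | t ∈ Icc (0 : ℝ) 1 ∧ η (e t) = b} with hS
  have hηc : Continuous fun t => η (e t) := η.continuous.comp hec
  have hScl : IsClosed S := isClosed_Icc.inter (isClosed_eq hηc continuous_const)
  have h1S : (1 : ℝ) ∈ S := by
    refine ⟨by simp, ?_⟩
    rw [hee 1 zero_le_one le_rfl]
    exact hη1
  have hSbb : BddBelow S := ⟨0, fun t ht => ht.1.1⟩
  set T : ℝ := sInf S with hT
  have hTS : T ∈ S := hScl.csInf_mem ⟨1, h1S⟩ hSbb
  have hT1 : T ≤ 1 := hTS.1.2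
  have hT0 : 0 ≤ T := hTS.1.1
  have hlt : ∀ t ∈ Ico 0 T, η (e t) ≠ b := fun t ht hcon =>
    notMem_of_lt_csInf ht.2 hSbb ⟨⟨ht.1, ht.2.le.trans hT1⟩, hcon⟩
  have hge : ∀ t ∈ Icc T 1, η (e t) = b := by
    intro t ht
    refine hend (e T) (e t) (monotone_projIcc _ ht.1) hTS.2
  -- convergence of the preimages
  have hT11 : ∀ n, T1 n ≤ 1 := fun n => (hd n).le
  have conv : ∀ {ι : Type} (l : Filter ι) (k : ι → ℕ) (τ : ι → ℝ) (t : ℝ), Tendsto k l atTop →
      (∀ᶠ i in l, τ i ∈ Ico (0 : ℝ) (T1 (k i))) → Tendsto τ l (𝓝 t) →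
      Tendsto (fun i => ψ (xs (k i) (τ i))) l (𝓝 (η (e t))) := by
    intro ι l k τ t hk hτ hτt
    have h1 : Tendsto (fun i => Xn (k i) (e (τ i))) l (𝓝 (η (e t))) := by
      have h2 : Tendsto (fun i => (Xn (k i), e (τ i))) l (𝓝 (η, e t)) :=
        (hX.comp hk).prodMk_nhds ((hec.tendsto t).comp hτt)
      exact (continuous_eval.tendsto (η, e t)).comp h2
    have h3 : Tendsto (fun i => dist (ψ (xs (k i) (τ i))) (Xn (k i) (e (τ i)))) l (𝓝 0) := by
      rw [Metric.tendsto_nhds]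
      intro ε hε
      filter_upwards [hk.eventually (Metric.tendstoUniformlyOn_iff.1 hu ε hε), hτ] with i hi hi'
      have hi1 : τ i ≤ 1 := hi'.2.le.trans (hT11 _)
      have h4 := (hd (k i)).map (e (τ i)) (by rw [hee _ hi'.1 hi1]; exact hi'.2)
      rw [← h4, hee _ hi'.1 hi1]
      rw [Real.dist_eq, sub_zero, abs_of_nonneg dist_nonneg]
      exact hi _ ((hd (k i)).im_nonneg _ hi')
    exact (tendsto_iff_of_dist h3).2 h1
  have hxsHC : ∀ n, ∀ t ∈ Ico (0 : ℝ) (T1 n), xs n t ∈ HC := fun n t ht =>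
    (hd n).im_nonneg t ht
  -- before time `T` the truncation is not seen
  have htr0 : ∀ t ∈ Ico 0 T, ∀ᶠ n in atTop, t < T0 n := by
    intro t ht
    have h1 : Tendsto (fun n => Xn n (e t)) atTop (𝓝 (η (e t))) :=
      ((continuous_eval_const (e t)).tendsto η).comp hX
    have h2 : 0 < dist (η (e t)) b := dist_pos.2 (hlt t ht)
    have h3 : Tendsto (fun n => dist (Xn n (e t)) (bn n) - ε n) atTop
        (𝓝 (dist (η (e t)) b - 0)) := (h1.dist hbn).sub hε
    rw [sub_zero] at h3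
    filter_upwards [h3.eventually_const_lt h2] with n hn
    by_contra hcon
    rw [not_lt] at hcon
    have h4 := (hd n).near (e t) (by rw [hee t ht.1 (ht.2.le.trans hT1)]; exact hcon)
    linarith
  have htr1 : ∀ t ∈ Ico 0 T, ∀ᶠ n in atTop, t ∈ Ico 0 (T1 n) := by
    intro t ht
    filter_upwards [htr0 t ht] with n hn
    exact ⟨ht.1, hn.trans (hd n).lt⟩
  have htr2 : ∀ {ι : Type} (l : Filter ι) (k : ι → ℕ) (τ : ι → ℝ) (t : ℝ), t ∈ Ico 0 T →
      Tendsto k l atTop → (∀ᶠ i in l, 0 ≤ τ i) → Tendsto τ l (𝓝 t) →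
      ∀ᶠ i in l, τ i ∈ Ico (0 : ℝ) (T1 (k i)) := by
    intro ι l k τ t ht hk hτ0 hτt
    obtain ⟨t', h1, h2⟩ := exists_between ht.2
    filter_upwards [hk.eventually (htr0 t' ⟨ht.1.trans h1.le, h2⟩), hτ0,
      hτt.eventually_lt_const h1] with i hi1 hi2 hi3
    exact ⟨hi2, (hi3.trans hi1).trans (hd _).lt⟩
  have hx : ∀ t : ℝ, ∃ y : ℂ, t ∈ Ico 0 T → y ∈ HC ∧ ψ y = η (e t) := by
    intro t
    by_cases ht : t ∈ Ico 0 T
    · obtain ⟨y, hy, hy'⟩ := hψ.exists (l := (atTop : Filter ℕ)) (u := fun n => xs n t)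
        ((htr1 t ht).mono fun n hn => hxsHC n t hn) (hlt t ht)
        (conv atTop id (fun _ => t) t tendsto_id (htr1 t ht) tendsto_const_nhds)
      exact ⟨y, fun _ => ⟨hy, hy'⟩⟩
    · exact ⟨0, fun h => absurd h ht⟩
  choose x hx using hx
  have xconv : ∀ {ι : Type} (l : Filter ι) (k : ι → ℕ) (τ : ι → ℝ) (t : ℝ), t ∈ Ico 0 T →
      Tendsto k l atTop → (∀ᶠ i in l, 0 ≤ τ i) → Tendsto τ l (𝓝 t) →
      Tendsto (fun i => xs (k i) (τ i)) l (𝓝 (x t)) := by
    intro ι l k τ t ht hk hτ hτt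
    have hτ' := htr2 l k τ t ht hk hτ hτt
    refine hψ.tendsto ?_ (hx t ht).1 ?_
    · filter_upwards [hτ'] with i hi
      exact hxsHC _ _ hi
    · rw [(hx t ht).2]
      exact conv l k τ t hk hτ' hτt
  have hxc : ContinuousOn x (Ico 0 T) := by
    intro t ht
    refine hψ.tendsto ?_ (hx t ht).1 ?_
    · filter_upwards [self_mem_nhdsWithin] with u hu
      exact (hx u hu).1
    · rw [(hx t ht).2]
      refine ((hηc.tendsto t).mono_left nhdsWithin_le_nhds).congr' ?_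
      filter_upwards [self_mem_nhdsWithin] with u hu
      exact (hx u hu).2.symm
  -- the limit reaches `b` at a positive time
  have hTpos : 0 < T := by
    refine lt_of_le_of_ne hT0 fun hcon => ?_
    have h01 : ∀ n, (0 : ℝ) ∈ Ico 0 (T1 n) := fun n => ⟨le_rfl, (hd n).pos.trans (hd n).lt⟩
    have h1 : Tendsto (fun n => ψ (xs n 0)) atTop (𝓝 (η (e 0))) :=
      conv atTop id (fun _ => 0) 0 tendsto_id
        (Eventually.of_forall fun n => h01 n) tendsto_const_nhds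
    have h2 : Tendsto (fun n => xs n 0) atTop (𝓝[HC] (W 0 : ℂ)) := by
      refine tendsto_nhdsWithin_iff.2 ⟨?_, Eventually.of_forall fun n => hxsHC n 0 (h01 n)⟩
      have h3 : Tendsto (fun n => Wn n 0) atTop (𝓝 (W 0)) :=
        (hWn 0).tendsto_at ⟨le_rfl, le_rfl⟩
      have h4 : (fun n => xs n 0) = fun n => ((Wn n 0 : ℝ) : ℂ) :=
        funext fun n => (hd n).sgen.start
      rw [h4]
      exact (Complex.continuous_ofReal.tendsto _).comp h3
    have hW0 : (W 0 : ℂ) ∈ HC := by show (0 : ℝ) ≤ ((W 0 : ℂ)).im; simp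
    have h5 := (hψ.cont _ hW0).tendsto.comp h2
    have h6 : ψ (W 0 : ℂ) = η (e 0) := tendsto_nhds_unique h5 h1
    refine hψ.ne _ hW0 ?_
    rw [h6, hcon]
    exact hTS.2
  have hA : ∀ T' ∈ Ioo 0 T, ∃ N, Appr (fun n => Wn (n + N)) (fun n => xs (n + N))
      (fun n => cs (n + N)) W x T' := by
    intro T' hT'
    obtain ⟨N, hN⟩ := eventually_atTop.1 (htr0 T' ⟨hT'.1.le, hT'.2⟩)
    have hNt : Tendsto (fun n : ℕ => n + N) atTop atTop := tendsto_add_atTop_nat N
    refine ⟨N, fun n => hWnc _, hWc, fun n => sgen_restrict (hd _).sgen hT'.1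
      ((hN (n + N) (Nat.le_add_left _ _)).le.trans (hd _).lt.le), ?_, fun t ht => ?_⟩
    · intro t
      rw [Metric.tendstoUniformlyOn_iff]
      intro e' he'
      exact hNt.eventually (Metric.tendstoUniformlyOn_iff.1 (hWn t) e' he')
    rw [← tendstoLocallyUniformlyOn_iff_tendstoUniformlyOn_of_compact isCompact_Icc,
      tendstoLocallyUniformlyOn_iff_forall_tendsto]
    intro u hu
    have huT : u ∈ Ico 0 T := ⟨hu.1, (hu.2.trans_lt ht.2).trans hT'.2⟩
    have hin : ∀ᶠ p : ℕ × ℝ in atTop ×ˢ 𝓝[Icc 0 t] u, p.2 ∈ Icc 0 t :=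
      tendsto_snd.eventually self_mem_nhdsWithin
    have h1 : Tendsto (fun p : ℕ × ℝ => xs (p.1 + N) p.2) (atTop ×ˢ 𝓝[Icc 0 t] u)
        (𝓝 (x u)) := by
      refine xconv _ (fun p : ℕ × ℝ => p.1 + N) Prod.snd u huT (hNt.comp tendsto_fst) ?_
        (tendsto_snd.mono_right nhdsWithin_le_nhds)
      filter_upwards [hin] with p hp
      exact hp.1
    have h2 : Tendsto (fun p : ℕ × ℝ => x p.2) (atTop ×ˢ 𝓝[Icc 0 t] u) (𝓝 (x u)) :=
      ((hxc u huT).mono fun v hv => ⟨hv.1, (hv.2.trans_lt ht.2).trans hT'.2⟩).tendsto.comp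
        tendsto_snd
    exact (h2.prodMk_nhds h1).mono_right (nhds_le_uniformity _)
  have hG' : ∀ T' ∈ Ioo 0 T, ∃ c', Gen W x c' T' ∧
      ∀ t ∈ Ico 0 T', Tendsto (fun n => cs n t) atTop (𝓝 (c' t)) := by
    intro T' hT'
    obtain ⟨N, hN⟩ := hA T' hT'
    obtain ⟨c', hg, hc'⟩ := HULL.s_hull _ _ _ W x T' hN
      (hxc.mono fun t ht => ⟨ht.1, ht.2.trans hT'.2⟩)
    refine ⟨c', hg, fun t ht => ?_⟩
    exact (tendsto_add_atTop_iff_nat (f := fun n => cs n t) N).1 (hc' t ht)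
  have hcex : ∀ t : ℝ, ∃ y : ℝ, t ∈ Ico 0 T → Tendsto (fun n => cs n t) atTop (𝓝 y) := by
    intro t
    by_cases ht : t ∈ Ico 0 T
    · obtain ⟨T', h1, h2⟩ := exists_between ht.2
      obtain ⟨c', -, hc'⟩ := hG' T' ⟨ht.1.trans_lt h1, h2⟩
      exact ⟨c' t, fun _ => hc' t ⟨ht.1, h1⟩⟩
    · exact ⟨0, fun h => absurd h ht⟩
  choose c hcn using hcex
  have hgen : Gen W x c T := by
    refine gen_glue hTpos fun T' hT' => ?_
    obtain ⟨c', hg, hc'⟩ := hG' T' hT'
    exact ⟨c', hg, fun t ht => tendsto_nhds_unique (hcn t ⟨ht.1, ht.2.trans hT'.2⟩) (hc' t ht)⟩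
  obtain ⟨γ, harc⟩ := s_arc W x c T hWc hR hH hgen
  have hxγ : ∀ t ∈ Ico 0 T, x t = γ (c t) := by
    intro t ht
    obtain ⟨T', h1, h2⟩ := exists_between ht.2
    have hT' : T' ∈ Ioo 0 T := ⟨ht.1.trans_lt h1, h2⟩
    obtain ⟨N, hN⟩ := hA T' hT'
    refine ARCX.s_nb _ _ _ W x c T' γ hN (gen_restrict hgen hT'.1 hT'.2.le) ?_
      (arc_restrict harc hT'.2.le) t ⟨ht.1, h1⟩
    intro s hs
    exact (tendsto_add_atTop_iff_nat (f := fun n => cs n s) N).2
      (hcn s ⟨hs.1, hs.2.trans hT'.2⟩)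
  have hc0 : ∀ t ∈ Ico 0 T, 0 ≤ c t := by
    intro t ht
    have := hgen.mono ⟨le_rfl, hTpos⟩ ht ht.1
    rwa [hgen.c_zero] at this
  -- the capacity is unbounded
  have hunb : ∀ M : ℝ, ∃ t ∈ Ico 0 T, M < c t := by
    by_contra hcon
    push Not at hcon
    obtain ⟨M, hM⟩ := hcon
    have hM0 : 0 ≤ M := (hc0 0 ⟨le_rfl, hTpos⟩).trans (hM 0 ⟨le_rfl, hTpos⟩)
    obtain ⟨R, hR'⟩ := exists_bdd hWc hM0
    have hxb : ∀ t ∈ Ico 0 T, ‖x t‖ ≤ max R |W 0| := by
      intro t ht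
      rw [hxγ t ht]
      have hct : c t ∈ c '' Ico 0 T := ⟨t, ht, rfl⟩
      rcases eq_or_lt_of_le (hc0 t ht) with h0 | h0
      · rw [← h0, harc.start, Complex.norm_real, Real.norm_eq_abs]
        exact le_max_right _ _
      · refine le_trans ?_ (le_max_left _ _)
        by_contra hcon
        push Not at hcon
        have h1 := dom_mono (hM t ht) (hR' _ (harc.im_pos _ hct h0) hcon)
        rw [harc.dom _ hct] at h1
        exact h1.2 ⟨c t, ⟨h0.le, le_rfl⟩, rfl⟩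
    set U := Ultrafilter.of (𝓝[<] T) with hU
    have hUl : (U : Filter ℝ) ≤ 𝓝[<] T := Ultrafilter.of_le _
    have hev : ∀ᶠ t in (U : Filter ℝ), t ∈ Ico 0 T :=
      hUl (mem_of_superset (Ioo_mem_nhdsLT hTpos) Ioo_subset_Ico_self)
    have hK : IsCompact (closedBall (0 : ℂ) (max R |W 0|) ∩ HC) :=
      (isCompact_closedBall _ _).inter_right isClosed_HC
    obtain ⟨y, hy, hyU⟩ := hK.ultrafilter_le_nhds (U.map x) (le_principal_iff.2 (by
      rw [Ultrafilter.mem_coe, Ultrafilter.mem_map]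
      filter_upwards [hev] with t ht
      exact ⟨by rw [mem_closedBall_zero_iff]; exact hxb t ht, (hx t ht).1⟩))
    have h1 : Tendsto x U (𝓝[HC] y) := by
      refine tendsto_nhdsWithin_iff.2 ⟨hyU, ?_⟩
      filter_upwards [hev] with t ht
      exact (hx t ht).1
    have h2 : Tendsto (fun t => ψ (x t)) U (𝓝 (ψ y)) := (hψ.cont y hy.2).tendsto.comp h1
    have h3 : Tendsto (fun t => ψ (x t)) U (𝓝 b) := by
      have h4 : Tendsto (fun t => η (e t)) U (𝓝 (η (e T))) :=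
        (hηc.tendsto T).mono_left (hUl.trans nhdsWithin_le_nhds)
      rw [hTS.2] at h4
      refine h4.congr' ?_
      filter_upwards [hev] with t ht
      exact (hx t ht).2.symm
    exact hψ.ne y hy.2 (tendsto_nhds_unique h2 h3)
  have hcimg : c '' Ico 0 T = Ici 0 := by
    apply Subset.antisymm
    · rintro _ ⟨t, ht, rfl⟩
      exact hc0 t ht
    · intro s hs
      obtain ⟨t, ht, hst⟩ := hunb s
      have h1 := intermediate_value_Icc ht.1 (hgen.contc.mono
        (fun v hv => ⟨hv.1, hv.2.trans_lt ht.2⟩ : Icc 0 t ⊆ Ico 0 T))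
      rw [hgen.c_zero] at h1
      obtain ⟨v, hv, hvs⟩ := h1 ⟨hs, hst.le⟩
      exact ⟨v, ⟨hv.1, hv.2.trans_lt ht.2⟩, hvs⟩
  have htr := isSimpleTrace_of_arc harc hcimg
  -- convergence of the capacity parametrisations
  set G : unitInterval → ℂ := fun s => if (s : ℝ) < 1 then ψ (γ ((s : ℝ) / (1 - s))) else b with hG
  have hrn : ∀ t ∈ Ico 0 T, Tendsto (fun n => ((rs n (e t) : unitInterval) : ℝ)) atTop
      (𝓝 (c t / (1 + c t))) := by
    intro t ht
    have ht1 : t < 1 := ht.2.trans_le hT1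
    have h1 : ∀ᶠ n in atTop, cs n t / (1 + cs n t) = ((rs n (e t) : unitInterval) : ℝ) := by
      filter_upwards [htr0 t ht] with n hn
      have h2 := hXr n (e t) (by rw [hee t ht.1 ht1.le]; exact hn.le)
      rw [h2, hee t ht.1 ht1.le]
    have h3 := hcn t ht
    have h4 := hc0 t ht
    exact (h3.div (tendsto_const_nhds.add h3) (by positivity)).congr' h1
  obtain ⟨G', hG', hlim⟩ := contconv (Gn := Gn) (G := G) (by
    intro s
    rw [tendsto_iff_ultrafilter]
    intro U hU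
    have hU1 : Tendsto (Prod.fst : ℕ × unitInterval → ℕ) U atTop := tendsto_fst.mono_left hU
    have hU2 : Tendsto (Prod.snd : ℕ × unitInterval → unitInterval) U (𝓝 s) :=
      tendsto_snd.mono_left hU
    have hU2' : Tendsto (fun p : ℕ × unitInterval => (p.2 : ℝ)) U (𝓝 (s : ℝ)) :=
      (continuous_subtype_val.tendsto s).comp hU2
    choose tp htp using fun p : ℕ × unitInterval => hrs p.1 p.2
    obtain ⟨ts, -, hts⟩ := isCompact_univ.ultrafilter_le_nhds (U.map tp) (by simp)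
    have htst : Tendsto tp U (𝓝 ts) := hts
    have h1 : Tendsto (fun p : ℕ × unitInterval => Gn p.1 p.2) U (𝓝 (η ts)) := by
      have h2 : (fun p : ℕ × unitInterval => Gn p.1 p.2) = fun p => Xn p.1 (tp p) := by
        funext p
        rw [← hXG p.1, htp]
      rw [h2]
      have h3 : Tendsto (fun p : ℕ × unitInterval => (Xn p.1, tp p)) U (𝓝 (η, ts)) :=
        (hX.comp hU1).prodMk_nhds htst
      exact (continuous_eval.tendsto (η, ts)).comp h3
    -- comparison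
    have hlo : ∀ t ∈ Ico 0 T, t < ts → c t / (1 + c t) ≤ s := by
      intro t ht htt
      have ht1 : t < 1 := ht.2.trans_le hT1
      refine le_of_tendsto_of_tendsto ((hrn t ht).comp hU1) hU2' ?_
      have h4 : ∀ᶠ p in (U : Filter (ℕ × unitInterval)), e t < tp p := by
        refine htst.eventually (lt_mem_nhds ?_)
        rw [hee t ht.1 ht1.le]
        exact htt
      filter_upwards [h4] with p hp
      have h5 := (hrm p.1) hp
      rw [htp] at h5
      exact_mod_cast h5.le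
    have hhi : ∀ t ∈ Ico 0 T, ts < t → (s : ℝ) ≤ c t / (1 + c t) := by
      intro t ht htt
      have ht1 : t < 1 := ht.2.trans_le hT1
      refine le_of_tendsto_of_tendsto hU2' ((hrn t ht).comp hU1) ?_
      have h4 : ∀ᶠ p in (U : Filter (ℕ × unitInterval)), tp p < e t := by
        refine htst.eventually (gt_mem_nhds ?_)
        rw [hee t ht.1 ht1.le]
        exact htt
      filter_upwards [h4] with p hp
      have h5 := (hrm p.1) hp
      rw [htp] at h5
      exact_mod_cast h5.le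
    have hrlt : ∀ t ∈ Ico 0 T, c t / (1 + c t) < 1 := by
      intro t ht
      have := hc0 t ht
      rw [div_lt_one (by positivity)]
      linarith
    have key : η ts = G s := by
      by_cases hs1 : (s : ℝ) < 1
      · have hGs : G s = ψ (γ ((s : ℝ) / (1 - s))) := by simp only [hG, if_pos hs1]
        have htsT : (ts : ℝ) < T := by
          by_contra hcon
          push Not at hcon
          obtain ⟨t, ht, htM⟩ := hunb ((s : ℝ) / (1 - s))
          have h4 := hlo t ht (ht.2.trans_le hcon)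
          have h5 := hc0 t ht
          have h6 : 0 < 1 - (s : ℝ) := by linarith
          rw [div_lt_iff₀ h6] at htM
          rw [div_le_iff₀ (by positivity)] at h4
          nlinarith
        have htsI : (ts : ℝ) ∈ Ico 0 T := ⟨ts.2.1, htsT⟩
        have hrc : ContinuousWithinAt (fun t => c t / (1 + c t)) (Ico 0 T) ts :=
          (hgen.contc _ htsI).div (continuousWithinAt_const.add (hgen.contc _ htsI))
            (by have := hc0 _ htsI; positivity)
        have hle : c ts / (1 + c ts) ≤ s := by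
          rcases eq_or_lt_of_le ts.2.1 with h0 | h0
          · rw [← h0, hgen.c_zero]
            simpa using s.2.1
          · have h7 : Tendsto (fun t => c t / (1 + c t)) (𝓝[<] (ts : ℝ))
                (𝓝 (c ts / (1 + c ts))) := by
              refine hrc.tendsto.mono_left (nhdsWithin_le_of_mem ?_)
              exact mem_of_superset (Ioo_mem_nhdsLT h0) fun v hv => ⟨hv.1.le, hv.2.trans htsT⟩
            refine le_of_tendsto h7 ?_
            filter_upwards [Ioo_mem_nhdsLT h0] with v hv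
            exact hlo v ⟨hv.1.le, hv.2.trans htsT⟩ hv.2
        have hge' : (s : ℝ) ≤ c ts / (1 + c ts) := by
          have h7 : Tendsto (fun t => c t / (1 + c t)) (𝓝[>] (ts : ℝ))
              (𝓝 (c ts / (1 + c ts))) := by
            refine hrc.tendsto.mono_left (nhdsWithin_le_of_mem ?_)
            exact mem_of_superset (Ioo_mem_nhdsGT htsT) fun v hv =>
              ⟨ts.2.1.trans hv.1.le, hv.2⟩
          refine ge_of_tendsto h7 ?_
          filter_upwards [Ioo_mem_nhdsGT htsT] with v hv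
          exact hhi v ⟨ts.2.1.trans hv.1.le, hv.2⟩ hv.1
        have heq : (s : ℝ) = c ts / (1 + c ts) := le_antisymm hge' hle
        have hcs : (s : ℝ) / (1 - s) = c ts := by
          have h5 := hc0 _ htsI
          rw [heq]
          field_simp
          ring
        rw [hGs, hcs, ← hxγ _ htsI, (hx _ htsI).2, heI]
      · have hs1' : (s : ℝ) = 1 := le_antisymm s.2.2 (not_lt.1 hs1)
        have hGs : G s = b := by simp only [hG, if_neg hs1]
        rw [hGs]
        have htsT : T ≤ (ts : ℝ) := by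
          by_contra hcon
          push Not at hcon
          obtain ⟨v, hv1, hv2⟩ := exists_between hcon
          have hvI : v ∈ Ico 0 T := ⟨ts.2.1.trans hv1.le, hv2⟩
          have h4 := hhi v hvI hv1
          rw [hs1'] at h4
          exact absurd (hrlt v hvI) (not_lt.2 h4)
        have h5 := hge ts ⟨htsT, ts.2.2⟩
        rwa [heI] at h5
    rw [← key]
    exact h1)
  refine ⟨γ, G', htr, ?_, ?_, hlim⟩
  · rw [hG']
    simp [hG]
  · intro t ht
    rw [hG']
    simp only [hG, if_pos ht]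

end Vale.Agent.P153.R2.UNIQ
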