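import Vale.Agent.P153.R2.UNIQ.Inputs

/-!
# P153 / R2 / UNIQ : the law of the driver is unique
-/

open MeasureTheory ProbabilityTheory Filter Topology Set
open scoped NNReal ENNReal

namespace Vale.Agent.P153.R2.UNIQ

variable [MeasurableSpace C(ℝ≥0, ℝ)] [BorelSpace C(ℝ≥0, ℝ)]

omit [BorelSpace C(ℝ≥0, ℝ)] in
theorem IsDrvLaw.prob {lam : Measure C(ℝ≥0, ℝ)} (h : IsDrvLaw lam) : IsProbabilityMeasure lam := by
  have h1 := h.toIsPreBrownianReal.hasLaw ∅
  exact h1.isProbabilityMeasure_iff.2 inferInstance

theorem drv_unique {lam lam' : Measure C(ℝ≥0, ℝ)} (h : IsDrvLaw lam) (h' : IsDrvLaw lam') :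
    lam = lam' := by
  have hp := h.prob
  have hp' := h'.prob
  set D : ℕ → ℝ≥0 := TopologicalSpace.denseSeq ℝ≥0 with hD
  let e : C(ℝ≥0, ℝ) → (ℕ → ℝ) := fun w n => w (D n)
  have he : Continuous e := continuous_pi fun n => continuous_eval_const (D n)
  have hinj : Function.Injective e := by
    intro w w' hw
    apply DFunLike.coe_injective
    refine (TopologicalSpace.denseRange_denseSeq ℝ≥0).equalizer w.continuous w'.continuous ?_
    funext n
    exact congrFun hw n
  have hemb : MeasurableEmbedding e := he.measurableEmbedding hinj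
  have key : lam.map e = lam'.map e := by
    have hp1 : IsProbabilityMeasure (lam'.map e) :=
      Measure.isProbabilityMeasure_map he.measurable.aemeasurable
    refine IsProjectiveLimit.unique (P := fun I => (lam'.map e).map I.restrict) ?_ ?_
    swap
    · intro I; rfl
    intro I
    classical
    have hr : Measurable (I.restrict : (ℕ → ℝ) → (I → ℝ)) := by fun_prop
    change (lam.map e).map I.restrict = (lam'.map e).map I.restrict
    rw [Measure.map_map hr he.measurable, Measure.map_map hr he.measurable]
    set J : Finset ℝ≥0 := I.image D with hJ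
    let g : (J → ℝ) → (I → ℝ) := fun f i => 2 * f ⟨D i, Finset.mem_image_of_mem D i.2⟩
    have hg : Measurable g := by fun_prop
    have hfac : (I.restrict : (ℕ → ℝ) → (I → ℝ)) ∘ e =
        g ∘ fun w => J.restrict (fun t : ℝ≥0 => w t / 2) := by
      funext w i
      simp only [Function.comp, g, e, Finset.restrict]
      ring
    have e1 := (h.toIsPreBrownianReal.hasLaw J).map_eq
    have e2 := (h'.toIsPreBrownianReal.hasLaw J).map_eq
    have hm : Measurable fun w : C(ℝ≥0, ℝ) => J.restrict (fun t : ℝ≥0 => w t / 2) := by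
      refine measurable_pi_iff.2 fun t => ?_
      exact ((continuous_eval_const (t : ℝ≥0)).measurable).div_const 2
    rw [hfac, ← Measure.map_map hg hm, ← Measure.map_map hg hm, e1, e2]
  rw [← hemb.comap_map lam, ← hemb.comap_map lam', key]

end Vale.Agent.P153.R2.UNIQ
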