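import Vale.Agent.P153.R2.UNIQ.Sub

/-!
# P153 / R2 / UNIQ : measurable choice of the trace, transport to other domains
-/

open MeasureTheory ProbabilityTheory Filter Topology Set
open scoped NNReal ENNReal

set_option linter.unusedVariables false

namespace Vale.Agent.P153.R2.UNIQ

open Vale.Agent.P153.R2.Final Vale.Agent.P153.R2.C1

/-- a random element which is determined by `y` through a relation is a measurable function of
`y` -/
theorem graph_fun {X Y A : Type*} [MeasurableSpace X] [StandardBorelSpace X] [Nonempty X]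
    [MeasurableSpace Y] [MeasurableSpace A] [StandardBorelSpace A] [Nonempty A]
    (ρ : Measure (Y × A)) [IsProbabilityMeasure ρ] (g : A → X) (hg : Measurable g)
    (R : X → Y → Prop) (hR : ∀ x x' y, R x y → R x' y → x = x')
    (h : ∀ᵐ p ∂ρ, R (g p.2) p.1) :
    ∃ f : Y → X, Measurable f ∧ (∀ᵐ y ∂ρ.fst, R (f y) y) ∧ ∀ᵐ p ∂ρ, g p.2 = f p.1 := by
  have hd : ρ.fst ⊗ₘ ρ.condKernel = ρ := Measure.disintegrate ρ _
  have hemb := measurableEmbedding_embeddingReal X
  obtain ⟨F, hF, hFe⟩ := hemb.exists_measurable_extend (measurable_id (α := X))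
    (fun _ => inferInstance)
  set u : A → ℝ := fun a => embeddingReal X (g a) with hu
  have hum : Measurable u := hemb.measurable.comp hg
  set f0 : Y → ℝ := fun y => ∫ a, u a ∂(ρ.condKernel y) with hf0
  have hf0m : Measurable f0 := by
    have : StronglyMeasurable f0 :=
      (hum.comp measurable_snd).stronglyMeasurable.integral_kernel_prod_right'
        (κ := ρ.condKernel)
    exact this.measurable
  have h1 : ∀ᵐ y ∂ρ.fst, ∀ᵐ a ∂(ρ.condKernel y), R (g a) y := by
    refine Measure.ae_ae_of_ae_compProd (p := fun p => R (g p.2) p.1) ?_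
    rw [hd]; exact h
  have h2 : ∀ᵐ y ∂ρ.fst, R (F (f0 y)) y ∧ ∀ᵐ a ∂(ρ.condKernel y), g a = F (f0 y) := by
    filter_upwards [h1] with y hy
    obtain ⟨a, ha⟩ := hy.exists
    have h3 : ∀ᵐ a' ∂(ρ.condKernel y), g a' = g a := by
      filter_upwards [hy] with a' ha' using hR _ _ y ha' ha
    have h4 : f0 y = embeddingReal X (g a) := by
      have h5 : ∀ᵐ a' ∂(ρ.condKernel y), u a' = embeddingReal X (g a) := by
        filter_upwards [h3] with a' ha'
        simp only [hu, ha']
      simp only [hf0]
      rw [integral_congr_ae h5]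
      simp
    have h5 : F (f0 y) = g a := by
      rw [h4]; exact congrFun hFe (g a)
    rw [h5]
    exact ⟨ha, h3⟩
  refine ⟨fun y => F (f0 y), hF.comp hf0m, h2.mono fun y hy => hy.1, ?_⟩
  rw [← hd, Measure.ae_compProd_iff]
  · exact h2.mono fun y hy => hy.2
  · exact measurableSet_eq_fun (hg.comp measurable_snd) ((hF.comp hf0m).comp measurable_fst)

/-- a measurable map which transports the boundary values of `ψ₀` to those of `ψ` -/
theorem exists_transport {ψ₀ ψ : ℂ → ℂ} (hc0 : ContinuousOn ψ₀ {z | 0 ≤ z.im})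
    (hi0 : InjOn ψ₀ {z | 0 ≤ z.im}) (hc : ContinuousOn ψ {z | 0 ≤ z.im}) :
    ∃ A : ℂ → ℂ, Measurable A ∧ ∀ z : ℂ, 0 ≤ z.im → A (ψ₀ z) = ψ z := by
  set H : Set ℂ := {z | 0 ≤ z.im} with hH
  have hcl : IsClosed H := isClosed_le continuous_const Complex.continuous_im
  have : PolishSpace H := hcl.polishSpace
  have h1 : Continuous (H.restrict ψ₀) := hc0.restrict
  have h2 : Function.Injective (H.restrict ψ₀) := hi0.injective
  have hemb : MeasurableEmbedding (H.restrict ψ₀) := h1.measurableEmbedding h2
  obtain ⟨A, hA, hAe⟩ := hemb.exists_measurable_extend (hc.restrict.measurable)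
    (fun _ => inferInstance)
  exact ⟨A, hA, fun z hz => congrFun hAe ⟨z, hz⟩⟩

/-- transport of the graph relation: the trace is transient, so it has an image in every domain -/
theorem gr_transport {ψ₀ ψ : ℂ → ℂ} {b₀ b : ℂ} (h₀ : DET.Uni ψ₀ b₀) (h : DET.Uni ψ b)
    {G₀ : C(unitInterval, ℂ)} {w : C(ℝ≥0, ℝ)} (hG : Gr ψ₀ b₀ G₀ w) :
    ∃ G : C(unitInterval, ℂ), Gr ψ b G w ∧ ∀ t : unitInterval, (t : ℝ) < 1 →
      ∃ z : ℂ, 0 ≤ z.im ∧ G₀ t = ψ₀ z ∧ G t = ψ z := by
  obtain ⟨h1, γ, hγ, h2⟩ := hG
  have hγim : ∀ s : ℝ, 0 ≤ s → 0 ≤ (γ s).im := by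
    intro s hs
    rcases hs.eq_or_lt with h0 | h0
    · rw [← h0, hγ.start]; simp
    · exact (hγ.im_pos s h0).le
  have harg : ∀ t : unitInterval, (t : ℝ) < 1 → 0 ≤ (t : ℝ) / (1 - t) := fun t ht =>
    div_nonneg t.2.1 (by linarith)
  classical
  let G : unitInterval → ℂ := fun t => if (t : ℝ) < 1 then ψ (γ (t / (1 - t))) else b
  have hGc : Continuous G := by
    rw [continuous_iff_continuousAt]
    intro t
    by_cases ht : (t : ℝ) < 1
    · have hopen : IsOpen {t : unitInterval | (t : ℝ) < 1} :=
        isOpen_lt continuous_subtype_val continuous_const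
      have hcon : ContinuousOn (fun t : unitInterval => ψ (γ ((t : ℝ) / (1 - t))))
          {t : unitInterval | (t : ℝ) < 1} := by
        refine h.cont.comp (hγ.cont.comp ?_ fun s hs => harg s hs) fun s hs =>
          hγim _ (harg s hs)
        refine ContinuousOn.div continuous_subtype_val.continuousOn
          (continuous_const.sub continuous_subtype_val).continuousOn fun s hs => ?_
        have : (s : ℝ) < 1 := hs
        linarith
      have h3 := hcon.continuousAt (hopen.mem_nhds ht)
      refine h3.congr ?_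
      filter_upwards [hopen.mem_nhds ht] with s hs
      have hs' : (s : ℝ) < 1 := hs
      simp only [G, if_pos hs']
    · have ht1 : t = 1 := Subtype.ext (le_antisymm t.2.2 (not_lt.1 ht))
      subst ht1
      have hG1 : G 1 = b := by simp [G]
      rw [ContinuousAt, hG1]
      -- along every ultrafilter
      rw [tendsto_iff_ultrafilter]
      intro U hU
      by_cases hU1 : {t : unitInterval | (t : ℝ) < 1} ∈ U
      · have hγU : Tendsto (fun t : unitInterval => γ ((t : ℝ) / (1 - t))) U
            (Bornology.cobounded ℂ ⊓ 𝓟 DET.HC) := by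
          rw [tendsto_inf, tendsto_principal]
          refine ⟨?_, by filter_upwards [hU1] with s hs using hγim _ (harg s hs)⟩
          by_contra hcon
          -- otherwise bounded, and `ψ₀` of the limit would be `b₀`
          have hbdd : ∃ R : ℝ, ∀ᶠ t : unitInterval in (U : Filter unitInterval),
              γ ((t : ℝ) / (1 - t)) ∈ Metric.closedBall (0 : ℂ) R := by
            by_contra hcon2
            push Not at hcon2
            apply hcon
            rw [← comap_norm_atTop, tendsto_comap_iff, tendsto_atTop]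
            intro R
            have h2 := hcon2 R
            filter_upwards [h2] with i hi
            simp only [Metric.mem_closedBall, dist_zero_right, not_le] at hi
            exact hi.le
          obtain ⟨R, hR⟩ := hbdd
          obtain ⟨z0, -, hz0⟩ := (isCompact_closedBall (0 : ℂ) R).ultrafilter_le_nhds
            (U.map fun t : unitInterval => γ ((t : ℝ) / (1 - t)))
            (by rw [Ultrafilter.coe_map, le_principal_iff]; exact hR)
          have hlim : Tendsto (fun t : unitInterval => γ ((t : ℝ) / (1 - t))) U (𝓝 z0) := hz0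
          have himU : ∀ᶠ t : unitInterval in (U : Filter unitInterval),
              γ ((t : ℝ) / (1 - t)) ∈ DET.HC := by
            filter_upwards [hU1] with s hs using hγim _ (harg s hs)
          have hz0' : z0 ∈ DET.HC := DET.isClosed_HC.mem_of_tendsto hlim himU
          have h5 : Tendsto (fun t : unitInterval => ψ₀ (γ ((t : ℝ) / (1 - t)))) U
              (𝓝 (ψ₀ z0)) :=
            (h₀.cont z0 hz0').tendsto.comp (tendsto_nhdsWithin_iff.2 ⟨hlim, himU⟩)
          have h6 : Tendsto (fun t : unitInterval => ψ₀ (γ ((t : ℝ) / (1 - t)))) U (𝓝 b₀) := by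
            have h7 : Tendsto G₀ U (𝓝 (G₀ 1)) := (G₀.continuous.tendsto 1).mono_left hU
            rw [h1] at h7
            refine h7.congr' ?_
            filter_upwards [hU1] with s hs using h2 s hs
          exact h₀.ne z0 hz0' (tendsto_nhds_unique h5 h6)
        refine (h.inf.comp hγU).congr' ?_
        filter_upwards [hU1] with s hs
        have hs' : (s : ℝ) < 1 := hs
        simp only [G, if_pos hs', Function.comp]
      · have hU2 : {t : unitInterval | ¬ (t : ℝ) < 1} ∈ U :=
          (Ultrafilter.compl_mem_iff_notMem).2 hU1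
        refine tendsto_const_nhds.congr' ?_
        filter_upwards [hU2] with s hs
        have hs' : ¬ (s : ℝ) < 1 := hs
        simp only [G, if_neg hs']
  refine ⟨⟨G, hGc⟩, ⟨?_, γ, hγ, fun t ht => ?_⟩, fun t ht => ?_⟩
  · change G 1 = b
    simp [G]
  · change G t = _
    simp only [G, if_pos ht]
  · refine ⟨γ ((t : ℝ) / (1 - t)), hγim _ (harg t ht), h2 t ht, ?_⟩
    change G t = _
    simp only [G, if_pos ht]

end Vale.Agent.P153.R2.UNIQ
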