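import Vale.Agent.P153.R2.UNIQ.Prob
import Vale.Agent.P153.R2.UNIQ.Drv

/-!
# P153 / R2 / UNIQ : subsequential limits in one marked Jordan domain
-/

open MeasureTheory ProbabilityTheory Filter Topology Set
open scoped NNReal ENNReal

set_option linter.unusedVariables false

namespace Vale.Agent.P153.R2.UNIQ

open Vale.Agent.P153.R2.Final Vale.Agent.P153.R2.C1

/-- `G` is the image under `ψ` of the simple trace of `w`, with the end point `b` -/
def Gr (ψ : ℂ → ℂ) (b : ℂ) (G : C(unitInterval, ℂ)) (w : C(ℝ≥0, ℝ)) : Prop :=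
  G 1 = b ∧ ∃ γ : ℝ → ℂ, Final.IsSimpleTrace (fun t => w t.toNNReal) γ ∧
    ∀ t : unitInterval, (t : ℝ) < 1 → G t = ψ (γ (t / (1 - t)))

theorem Gr.unique {ψ : ℂ → ℂ} {b : ℂ} {G G' : C(unitInterval, ℂ)} {w : C(ℝ≥0, ℝ)}
    (h : Gr ψ b G w) (h' : Gr ψ b G' w) : G = G' := by
  obtain ⟨h1, γ, hγ, h2⟩ := h
  obtain ⟨h1', γ', hγ', h2'⟩ := h'
  ext t
  rcases (show (t : ℝ) ≤ 1 from t.2.2).lt_or_eq with ht | ht
  · rw [h2 t ht, h2' t ht]
    congr 1
    exact trace_unique hγ hγ' _ (div_nonneg t.2.1 (by linarith))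
  · have : t = 1 := Subtype.ext ht
    rw [this, h1, h1']

/-- invariance under increasing reparametrisation -/
def Inv (F : C(unitInterval, ℂ) → ℝ) : Prop :=
  ∀ (x : C(unitInterval, ℂ)) (σ : C(unitInterval, unitInterval)), StrictMono σ →
    Function.Surjective σ → F (x.comp σ) = F x

theorem Inv.reparam {F : C(unitInterval, ℂ) → ℝ} (h : Inv F) (x : C(unitInterval, ℂ))
    (φ : unitInterval ≃o unitInterval) : F (reparam x φ) = F x :=
  h x ⟨φ, φ.continuous⟩ φ.strictMono φ.surjective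

theorem interface_reparam {n k : ℕ} {p : ZMod n → ℤ × ℤ} {S : Finset Tri} {δ : ℝ} {h : Hg}
    {c : C(unitInterval, ℂ)} (hc : IsInterface p k S δ h c) (φ : unitInterval ≃o unitInterval) :
    IsInterface p k S δ h (reparam c φ) := by
  obtain ⟨h1, h2, h3, h4⟩ := hc
  refine ⟨h1.comp φ.injective, ?_, ?_, fun t => h4 (φ t)⟩
  · change c (φ 0) = _
    rw [show φ 0 = 0 from φ.map_bot, h2]
  · change c (φ 1) = _
    rw [show φ 1 = 1 from φ.map_top, h3]

theorem approx_sub {Φ : (ℝ × ℝ) ≃ₜ (ℝ × ℝ)} {δ : ℕ → ℝ} {N k : ℕ → ℕ}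
    {p : ∀ n, ZMod (N n) → ℤ × ℤ} {S : ℕ → Finset Tri} (h : Approx Φ δ N k p S) {θ : ℕ → ℕ}
    (hθ : Tendsto θ atTop atTop) :
    Approx Φ (fun n => δ (θ n)) (fun n => N (θ n)) (fun n => k (θ n)) (fun n => p (θ n))
      (fun n => S (θ n)) :=
  ⟨fun n => h.1 (θ n), h.2.1.comp hθ, fun ε hε => hθ.eventually (h.2.2.1 ε hε),
    fun K hK hKc => hθ.eventually (h.2.2.2 K hK hKc)⟩

theorem neBot_inf : (Bornology.cobounded ℂ ⊓ 𝓟 {z : ℂ | 0 ≤ z.im}).NeBot := by
  rw [← comap_norm_atTop, inf_principal_neBot_iff]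
  intro U hU
  obtain ⟨V, hV, hVU⟩ := hU
  obtain ⟨R, hR⟩ := mem_atTop_sets.1 hV
  refine ⟨(|R| : ℝ) * Complex.I, hVU ?_, ?_⟩
  · apply hR
    rw [norm_mul, Complex.norm_I, mul_one, Complex.norm_real, Real.norm_eq_abs, abs_abs]
    exact le_abs_self R
  · simp

theorem uni_of (huinj : I_uinj) {Φ : (ℝ × ℝ) ≃ₜ (ℝ × ℝ)} {ψ : ℂ → ℂ} (h : IsUniformizer Φ ψ) :
    DET.Uni ψ (bpt Φ) := by
  obtain ⟨h1, h2⟩ := huinj Φ ψ h
  exact ⟨h.2.2.2.1, h1, h.2.2.2.2.2, fun z hz => h2 z hz⟩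

theorem end_conv {ψn : ℕ → ℂ → ℂ} {ψ : ℂ → ℂ} {b : ℂ} {bn : ℕ → ℂ}
    (hinf : Tendsto ψ (Bornology.cobounded ℂ ⊓ 𝓟 {z | 0 ≤ z.im}) (𝓝 b))
    (hn : ∀ n, Tendsto (ψn n) (Bornology.cobounded ℂ ⊓ 𝓟 {z | 0 ≤ z.im}) (𝓝 (bn n)))
    (hconv : ∀ ε > 0, ∀ᶠ n in atTop, ∀ z : ℂ, 0 ≤ z.im → dist (ψn n z) (ψ z) < ε) :
    Tendsto bn atTop (𝓝 b) := by
  have := neBot_inf
  rw [Metric.tendsto_nhds]
  intro ε hε
  filter_upwards [hconv (ε / 2) (by positivity)] with n h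
  have h1 : Tendsto (fun z => dist (ψn n z) (ψ z))
      (Bornology.cobounded ℂ ⊓ 𝓟 {z | 0 ≤ z.im}) (𝓝 (dist (bn n) b)) := (hn n).dist hinf
  have h2 : dist (bn n) b ≤ ε / 2 := by
    refine le_of_tendsto h1 ?_
    filter_upwards [mem_inf_of_right (mem_principal_self _)] with z hz
    exact (h z hz).le
  linarith

variable [MeasurableSpace C(unitInterval, ℂ)] [BorelSpace C(unitInterval, ℂ)]
  [MeasurableSpace C(ℝ≥0, ℝ)] [BorelSpace C(ℝ≥0, ℝ)]

theorem sub_limit_aux (huinj : I_uinj) (hrado : I_rado) (hfin : I_fin) (hdrv : I_drv)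
    (hcross : I_cross) (hend : I_end) (hbess : I_bess)
    (Φ : (ℝ × ℝ) ≃ₜ (ℝ × ℝ)) (ψ : ℂ → ℂ) (hψ : IsUniformizer Φ ψ)
    (δ : ℕ → ℝ) (N k : ℕ → ℕ) (p : ∀ n, ZMod (N n) → ℤ × ℤ) (S : ℕ → Finset Tri)
    (hA : Approx Φ δ N k p S) (R : ℝ) (hR : ∀ n, ∀ z ∈ region (δ n) (S n), ‖toC z‖ ≤ R)
    (x : ∀ n : ℕ, Hg → C(unitInterval, ℂ))
    (hx : ∀ n, ∀ h ∈ Heights (p n) (k n) (S n), IsInterface (p n) (k n) (S n) (δ n) h (x n h)) :
    ∃ (θ : ℕ → ℕ) (_ : StrictMono θ)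
      (ν : Measure ((C(unitInterval, ℂ) × C(ℝ≥0, ℝ)) × C(unitInterval, ℂ)))
      (_ : IsProbabilityMeasure ν), IsDrvLaw (ν.map fun q => q.1.2) ∧
      (∀ᵐ q ∂ν, Gr ψ (bpt Φ) q.2 q.1.2) ∧
      ∀ F : C(unitInterval, ℂ) → ℝ, Continuous F → (∃ M, ∀ y, |F y| ≤ M) → Inv F →
        Tendsto (fun n => mean (law (p (θ n)) (k (θ n)) (S (θ n))) fun h => F (x (θ n) h)) atTop
          (𝓝 (∫ q, F q.2 ∂ν)) := by
  classical
  obtain ⟨ψn, hψn, hconv⟩ := hrado Φ ψ hψ δ N k p S hA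
  -- the finite probability spaces
  set s : ∀ n : ℕ, Set Hg := fun n => Heights (p n) (k n) (S n) with hs
  have hsf : ∀ n, (s n).Finite := fun n => (hfin (N n) (k n) (p n) (S n) (hA.1 n).2.2.2.1
    (hA.1 n).2.2.2.2).1
  have hsn : ∀ n, (s n).Nonempty := fun n => (hfin (N n) (k n) (p n) (S n) (hA.1 n).2.2.2.1
    (hA.1 n).2.2.2.2).2
  let P : ∀ n, Measure (s n) := fun n => uniformOn univ
  have hP : ∀ n, IsProbabilityMeasure (P n) := fun n => prob_uniformOn (s n) (hsf n) (hsn n)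
  have hmean : ∀ n (F : Hg → ℝ), mean (law (p n) (k n) (S n)) F = ∫ ω : s n, F ω ∂(P n) :=
    fun n F => integral_uniformOn (s n) (hsf n) F
  have hmeas : ∀ n (A : Set Hg), law (p n) (k n) (S n) A = P n {ω : ↥(s n) | (ω : Hg) ∈ A} :=
    fun n A => measure_uniformOn (s n) (hsf n) A
  have hsc : ∀ n, Countable (s n) := fun n => (hsf n).countable
  have hmf : ∀ (n : ℕ) {E : Type} [MeasurableSpace E] (f : s n → E), Measurable f :=
    fun n E _ f => measurable_of_countable f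
  -- canonical reparametrisation
  set x' : ∀ n : ℕ, Hg → C(unitInterval, ℂ) := fun n h => rho (x n h) with hx'def
  have hx' : ∀ n, ∀ h ∈ Heights (p n) (k n) (S n),
      IsInterface (p n) (k n) (S n) (δ n) h (x' n h) := fun n h hh =>
    interface_reparam (hx n h hh) _
  obtain ⟨η, c, w, T₀, T₁, ε, hε, hD, hlam⟩ :=
    hdrv Φ ψ hψ δ N k p S hA ψn hψn hconv x' hx'
  obtain ⟨lam, hlamD, hlam⟩ := hlam
  have hlamP := hlamD.prob
  -- tightness
  have hxR : ∀ n, ∀ᵐ ω : ↥(s n) ∂(P n), ∀ t, ‖x n ω t‖ ≤ R := by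
    intro n
    refine Eventually.of_forall fun (ω : ↥(s n)) t => ?_
    have h1 := (hx n ω ω.2).2.2.2 t
    exact hR n _ h1.1
  have hreal : ∀ (A : ∀ n : ℕ, Set Hg) (e : ℝ), 0 < e →
      (∀ᶠ n in atTop, (law (p n) (k n) (S n)).real (A n) ≤ e) →
      ∀ᶠ n in atTop, P n {ω : ↥(s n) | (ω : Hg) ∈ A n} ≤ ENNReal.ofReal e := by
    intro A e he h
    filter_upwards [h] with n hn
    rw [← hmeas]
    have hfin : law (p n) (k n) (S n) (A n) ≠ ⊤ := by
      rw [hmeas]; exact measure_ne_top _ _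
    rw [Measure.real] at hn
    exact (ENNReal.le_ofReal_iff_toReal_le hfin he.le).2 hn
  have hxc : ∀ (y : ℂ) (r : ℝ), 0 < r → ∀ e : ENNReal, 0 < e →
      ∃ m : ℕ, ∀ᶠ n in atTop, P n {ω : ↥(s n) | Cross (x n ω) y r (3 * r) m} ≤ e := by
    intro y r hr e he
    by_cases hetop : e = ⊤
    · exact ⟨0, Eventually.of_forall fun n => by rw [hetop]; exact le_top⟩
    · have he0 : 0 < e.toReal := ENNReal.toReal_pos he.ne' hetop
      obtain ⟨m, hm⟩ := hcross Φ δ N k p S hA x hx y r hr e.toReal he0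
      refine ⟨m, ?_⟩
      filter_upwards [hreal (fun n => {h | Cross (x n h) y r (3 * r) m}) e.toReal he0 hm] with n hn
      rwa [ENNReal.ofReal_toReal hetop] at hn
  have hwlim : ∀ f : C(ℝ≥0, ℝ) → ℝ, Continuous f → (∃ M, ∀ y, |f y| ≤ M) →
      Tendsto (fun n => ∫ y, f y ∂((P n).map fun ω : ↥(s n) => w n ω)) atTop (𝓝 (∫ y, f y ∂lam)) := by
    intro f hf hM
    refine (hlam f hf hM).congr fun n => ?_
    rw [hmean, integral_map (hmf n _).aemeasurable hf.aestronglyMeasurable]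
  have hwt : IsTightMeasureSet (range fun n => (P n).map fun ω : ↥(s n) => w n ω) :=
    tight_of_lim _ (fun n => Measure.isProbabilityMeasure_map (hmf n _).aemeasurable) lam hlamP
      hwlim
  obtain ⟨θ, hθ, μ, hμ, hjoint⟩ := joint_main (fun n => s n) P hP (fun n ω => x n ω)
    (fun n => hmf n _) (fun n ω => w n ω) (fun n => hmf n _) R hxR hxc hwt id
  simp only [id] at hjoint
  -- the marginals
  have hsnd : μ.map Prod.snd = lam := by
    refine lim_unique _ _ (Measure.isProbabilityMeasure_map measurable_snd.aemeasurable) hlamP ?_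
    intro f hf hM
    obtain ⟨M, hM'⟩ := hM
    have h1 := hjoint (fun q => f q.2) (hf.comp continuous_snd) ⟨M, fun q => hM' q.2⟩
    have h2 := (hwlim f hf ⟨M, hM'⟩).comp hθ.tendsto_atTop
    rw [integral_map measurable_snd.aemeasurable hf.aestronglyMeasurable]
    refine tendsto_nhds_unique h1 (h2.congr fun n => ?_)
    simp only [Function.comp]
    exact integral_map (hmf _ _).aemeasurable hf.aestronglyMeasurable
  have hgood : ∀ᵐ q ∂μ, ARCX.NoSwallowR (fun t => q.2 t.toNNReal) ∧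
      ARCX.NoSwallowH (fun t => q.2 t.toNNReal) := by
    have h1 := hbess lam hlamD
    rw [← hsnd] at h1
    exact ae_of_ae_map measurable_snd.aemeasurable h1
  have hendμ : ∀ᵐ q ∂μ, ∀ t₁ t₂ : unitInterval, t₁ ≤ t₂ → q.1 t₁ = bpt Φ → q.1 t₂ = bpt Φ := by
    have hrat : ∀ j : ℕ, ∀ᵐ q ∂μ, ∀ t₁ t₂ : unitInterval, t₁ ≤ t₂ → q.1 t₁ = bpt Φ →
        dist (q.1 t₂) (bpt Φ) ≤ 1 / ((j : ℝ) + 1) := by
      intro j
      have hj : (0 : ℝ) < 1 / ((j : ℝ) + 1) := by positivity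
      set Bad : Set (C(unitInterval, ℂ) × C(ℝ≥0, ℝ)) := {q | ¬ ∀ t₁ t₂ : unitInterval, t₁ ≤ t₂ →
        q.1 t₁ = bpt Φ → dist (q.1 t₂) (bpt Φ) ≤ 1 / ((j : ℝ) + 1)} with hBad
      have hBle : ∀ e : ℝ, 0 < e → μ Bad ≤ ENNReal.ofReal e := by
        intro e he
        obtain ⟨r', hr', hev⟩ := hend Φ δ N k p S hA x' hx' _ hj e he
        set U : Set (C(unitInterval, ℂ) × C(ℝ≥0, ℝ)) := {q | ∃ t₁ t₂ : unitInterval, t₁ ≤ t₂ ∧
          dist (q.1 t₁) (bpt Φ) < r' ∧ 1 / ((j : ℝ) + 1) < dist (q.1 t₂) (bpt Φ)} with hU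
        have hUo : IsOpen U := by
          have : U = ⋃ (t₁ : unitInterval) (t₂ : unitInterval) (_ : t₁ ≤ t₂),
              ({q : C(unitInterval, ℂ) × C(ℝ≥0, ℝ) | dist (q.1 t₁) (bpt Φ) < r'} ∩
                {q | 1 / ((j : ℝ) + 1) < dist (q.1 t₂) (bpt Φ)}) := by
            ext q
            simp only [hU, mem_ofPred_eq, mem_iUnion, mem_inter_iff, exists_prop]
          rw [this]
          refine isOpen_iUnion fun t₁ => isOpen_iUnion fun t₂ => isOpen_iUnion fun _ => ?_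
          refine IsOpen.inter ?_ ?_
          · exact isOpen_lt (((continuous_eval_const t₁).comp continuous_fst).dist
              continuous_const) continuous_const
          · exact isOpen_lt continuous_const (((continuous_eval_const t₂).comp
              continuous_fst).dist continuous_const)
        have hsub : Bad ⊆ U := by
          intro q hq
          simp only [hBad, mem_ofPred_eq, not_forall, not_le] at hq
          obtain ⟨t₁, t₂, h12, h1, h2⟩ := hq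
          exact ⟨t₁, t₂, h12, by rw [h1, dist_self]; exact hr', h2⟩
        refine (measure_mono hsub).trans ?_
        have hYm : ∀ n, Measurable fun ω : s (θ n) => (rho (x (θ n) ω), w (θ n) ω) := fun n =>
          hmf _ _
        refine open_le (fun n => (P (θ n)).map fun ω : ↥(s (θ n)) =>
          (rho (x (θ n) ω), w (θ n) ω))
          (fun n => Measure.isProbabilityMeasure_map (hYm n).aemeasurable) μ hμ ?_ hUo ?_
        · intro f hf hM
          refine (hjoint f hf hM).congr fun n => ?_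
          exact (integral_map (hYm n).aemeasurable hf.aestronglyMeasurable).symm
        · filter_upwards [hθ.tendsto_atTop.eventually (hreal (fun n => {h | ∃ t₁ t₂ :
            unitInterval, t₁ ≤ t₂ ∧ dist (x' n h t₁) (bpt Φ) < r' ∧
            1 / ((j : ℝ) + 1) < dist (x' n h t₂) (bpt Φ)}) e he hev)] with n hn
          rw [Measure.map_apply (hYm n) hUo.measurableSet]
          exact hn
      have hB0 : μ Bad = 0 := by
        by_contra hne
        have hpos : 0 < μ Bad := pos_iff_ne_zero.2 hne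
        have hnt : μ Bad ≠ ⊤ := measure_ne_top _ _
        have h1 := hBle ((μ Bad).toReal / 2) (by
          have := ENNReal.toReal_pos hne hnt; positivity)
        have h2 : ENNReal.ofReal ((μ Bad).toReal / 2) < μ Bad := by
          rw [ENNReal.ofReal_lt_iff_lt_toReal (by positivity) hnt]
          have := ENNReal.toReal_pos hne hnt
          linarith
        exact absurd h1 (not_le.2 h2)
      exact hB0
    filter_upwards [ae_all_iff.2 hrat] with q hq t₁ t₂ h12 h1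
    have h2 : dist (q.1 t₂) (bpt Φ) ≤ 0 := by
      refine ge_of_tendsto' tendsto_one_div_add_atTop_nhds_zero_nat fun j => hq j t₁ t₂ h12 h1
    exact dist_le_zero.1 h2
  -- the capacity parametrisation
  have hcap : ∀ (n : ℕ) (ω : s n), ∃ r : unitInterval ≃o unitInterval,
      ∀ t : unitInterval, (t : ℝ) ≤ T₀ n ω → (r t : ℝ) = c n ω t / (1 + c n ω t) :=
    fun n ω => exists_cap (hD n ω ω.2)
  choose rr hrr using hcap
  set Γ : ∀ n, s n → C(unitInterval, ℂ) := fun n ω => reparam (x' n ω) (rr n ω).symm with hΓ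
  have hbn : Tendsto (fun n => bptD (p n) (k n) (δ n)) atTop (𝓝 (bpt Φ)) :=
    end_conv hψ.2.2.2.2.2 (fun n => (hψn n).inf) hconv
  have hdetseq : ∀ (q : C(unitInterval, ℂ) × C(ℝ≥0, ℝ)),
      (ARCX.NoSwallowR (fun t => q.2 t.toNNReal) ∧ ARCX.NoSwallowH (fun t => q.2 t.toNNReal)) →
      (∀ t₁ t₂ : unitInterval, t₁ ≤ t₂ → q.1 t₁ = bpt Φ → q.1 t₂ = bpt Φ) →
      ∀ (κ : ℕ → ℕ), StrictMono κ → ∀ ω : ∀ j, s (θ (κ j)),
      Tendsto (fun j => (rho (x (θ (κ j)) (ω j)), w (θ (κ j)) (ω j))) atTop (𝓝 q) →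
      ∃ G, Gr ψ (bpt Φ) G q.2 ∧ Tendsto (fun j => Γ (θ (κ j)) (ω j)) atTop (𝓝 G) := by
    intro q hq1 hq2 κ hκ ω hlim
    have hθκ : Tendsto (fun j => θ (κ j)) atTop atTop :=
      hθ.tendsto_atTop.comp hκ.tendsto_atTop
    have h1 : Tendsto (fun j => x' (θ (κ j)) (ω j)) atTop (𝓝 q.1) :=
      (continuous_fst.tendsto q).comp hlim
    have h2 : Tendsto (fun j => w (θ (κ j)) (ω j)) atTop (𝓝 q.2) :=
      (continuous_snd.tendsto q).comp hlim
    obtain ⟨γ, G, hγ, hG1, hG, hlimG⟩ := det_tr (fun j => ψn (θ (κ j))) ψ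
      (fun j => bptD (p (θ (κ j))) (k (θ (κ j))) (δ (θ (κ j)))) (bpt Φ)
      (fun j => w (θ (κ j)) (ω j)) q.2 (fun j => x' (θ (κ j)) (ω j))
      (fun j => Γ (θ (κ j)) (ω j)) q.1 (fun j => η (θ (κ j)) (ω j))
      (fun j => c (θ (κ j)) (ω j)) (fun j => T₀ (θ (κ j)) (ω j)) (fun j => T₁ (θ (κ j)) (ω j))
      (fun j => ε (θ (κ j))) (uni_of huinj hψ) (by
        rw [Metric.tendstoUniformlyOn_iff]
        intro e he
        filter_upwards [hθκ.eventually (hconv e he)] with j hj z hz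
        rw [dist_comm]
        exact hj z hz) (hbn.comp hθκ) (hε.comp hθκ) (fun j => hD _ _ (ω j).2)
      (fun j => rr (θ (κ j)) (ω j)) (fun j t => by
        change x' (θ (κ j)) (ω j) ((rr (θ (κ j)) (ω j)).symm (rr (θ (κ j)) (ω j) t)) = _
        rw [OrderIso.symm_apply_apply]) (fun j t ht => hrr _ _ t ht) h2 h1 hq2 hq1.1 hq1.2
    exact ⟨G, ⟨hG1, γ, hγ, hG⟩, hlimG⟩
  obtain ⟨ν', hν', hfst', hgr', hlim'⟩ := ecm_polish (fun n => s (θ n)) (fun n => P (θ n))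
    (fun n => hP (θ n)) (fun n ω => (rho (x (θ n) ω), w (θ n) ω)) (fun n => hmf _ _)
    (fun n ω => Γ (θ n) ω) (fun n => hmf _ _) μ hjoint (by
      filter_upwards [hgood, hendμ] with q hq1 hq2
      by_cases hex : ∃ (κ : ℕ → ℕ) (_ : StrictMono κ) (ω : ∀ j, s (θ (κ j))),
          Tendsto (fun j => (rho (x (θ (κ j)) (ω j)), w (θ (κ j)) (ω j))) atTop (𝓝 q)
      · obtain ⟨κ, hκ, ω, hlim⟩ := hex
        obtain ⟨G, hG, -⟩ := hdetseq q hq1 hq2 κ hκ ω hlim
        refine ⟨G, fun κ' hκ' ω' hlim' => ?_⟩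
        obtain ⟨G', hG', hlimG'⟩ := hdetseq q hq1 hq2 κ' hκ' ω' hlim'
        rwa [hG'.unique hG] at hlimG'
      · exact ⟨q.1, fun κ hκ ω hlim => absurd ⟨κ, hκ, ω, hlim⟩ hex⟩)
  refine ⟨θ, hθ, ν', hν', ?_, ?_, ?_⟩
  · have h1 : (ν'.map fun q => q.1.2) = lam := by
      rw [← hsnd, ← hfst', Measure.map_map measurable_snd measurable_fst]
      rfl
    rw [h1]
    exact hlamD
  · have h2 : ∀ᵐ q ∂ν', (ARCX.NoSwallowR (fun t => q.1.2 t.toNNReal) ∧
        ARCX.NoSwallowH (fun t => q.1.2 t.toNNReal)) := by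
      rw [← hfst'] at hgood
      exact ae_of_ae_map measurable_fst.aemeasurable hgood
    have h3 : ∀ᵐ q ∂ν', ∀ t₁ t₂ : unitInterval, t₁ ≤ t₂ → q.1.1 t₁ = bpt Φ →
        q.1.1 t₂ = bpt Φ := by
      rw [← hfst'] at hendμ
      exact ae_of_ae_map measurable_fst.aemeasurable hendμ
    filter_upwards [h2, h3, hgr'] with q hq1 hq2 hq3
    obtain ⟨κ, hκ, ω, hl1, hl2⟩ := hq3
    obtain ⟨G, hG, hlimG⟩ := hdetseq q.1 hq1 hq2 κ hκ ω hl1
    have : G = q.2 := tendsto_nhds_unique hlimG hl2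
    rwa [this] at hG
  · intro F hF hM hinv
    obtain ⟨M, hM'⟩ := hM
    have h1 := hlim' (fun q => F q.2) (hF.comp continuous_snd) ⟨M, fun q => hM' q.2⟩
    refine h1.congr fun n => ?_
    rw [hmean]
    refine integral_congr_ae (Eventually.of_forall fun ω => ?_)
    change F (reparam (reparam (x (θ n) ω) _) _) = F (x (θ n) ω)
    rw [hinv.reparam, hinv.reparam]

end Vale.Agent.P153.R2.UNIQ
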