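import Mathlib

/-!
# P153 / R2 / UNIQ : elementary tools for the deterministic part of the assembly
-/

open Filter Topology Set

namespace Vale.Agent.P153.R2.UNIQ

/-- Inverse of an injective continuous map of the closed half-plane which tends to the missing
value `b` at infinity. -/
theorem inv_tendsto {ψ : ℂ → ℂ} {b : ℂ} (hc : ContinuousOn ψ {z | 0 ≤ z.im})
    (hi : InjOn ψ {z | 0 ≤ z.im})
    (hinf : Tendsto ψ (Bornology.cobounded ℂ ⊓ 𝓟 {z | 0 ≤ z.im}) (𝓝 b))
    {ι : Type*} {l : Filter ι} [l.NeBot] {z : ι → ℂ} (hz : ∀ᶠ i in l, 0 ≤ (z i).im) {q : ℂ}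
    (hq : q ≠ b) (h : Tendsto (fun i => ψ (z i)) l (𝓝 q)) :
    ∃ z0 : ℂ, 0 ≤ z0.im ∧ ψ z0 = q ∧ Tendsto z l (𝓝 z0) := by
  have hcl : IsClosed {z : ℂ | 0 ≤ z.im} := isClosed_le continuous_const Complex.continuous_im
  have key : ∀ U : Ultrafilter ι, (U : Filter ι) ≤ l →
      ∃ z0 : ℂ, 0 ≤ z0.im ∧ ψ z0 = q ∧ Tendsto z U (𝓝 z0) := by
    intro U hU
    have hzU : ∀ᶠ i in (U : Filter ι), 0 ≤ (z i).im := hU hz
    by_cases hb : ∃ R : ℝ, ∀ᶠ i in (U : Filter ι), z i ∈ Metric.closedBall (0 : ℂ) R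
    · obtain ⟨R, hR⟩ := hb
      have hK := isCompact_closedBall (0 : ℂ) R
      obtain ⟨z0, -, hz0⟩ := hK.ultrafilter_le_nhds (U.map z)
        (by rw [Ultrafilter.coe_map, le_principal_iff]; exact hR)
      have hlim : Tendsto z U (𝓝 z0) := hz0
      have hz0' : 0 ≤ z0.im := hcl.mem_of_tendsto hlim hzU
      refine ⟨z0, hz0', ?_, hlim⟩
      have h1 : Tendsto (fun i => ψ (z i)) U (𝓝 (ψ z0)) := by
        refine (hc z0 hz0').tendsto.comp ?_
        exact tendsto_nhdsWithin_iff.2 ⟨hlim, hzU⟩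
      exact tendsto_nhds_unique h1 (h.mono_left hU)
    · push Not at hb
      exfalso
      have h1 : Tendsto z U (Bornology.cobounded ℂ ⊓ 𝓟 {z | 0 ≤ z.im}) := by
        rw [tendsto_inf, tendsto_principal]
        refine ⟨?_, hzU⟩
        rw [← comap_norm_atTop, tendsto_comap_iff, tendsto_atTop]
        intro R
        have h2 := hb R
        filter_upwards [h2] with i hi
        simp only [Metric.mem_closedBall, dist_zero_right, not_le] at hi
        exact hi.le
      exact hq (tendsto_nhds_unique (h.mono_left hU) (hinf.comp h1))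
  obtain ⟨z0, h0, h1, -⟩ := key (Ultrafilter.of l) (Ultrafilter.of_le l)
  refine ⟨z0, h0, h1, ?_⟩
  rw [tendsto_iff_ultrafilter]
  intro U hU
  obtain ⟨z1, h2, h3, h4⟩ := key U hU
  have : z1 = z0 := hi h2 h0 (h3.trans h1.symm)
  rwa [this] at h4

/-- Continuous convergence implies uniform convergence on compact sets. -/
theorem unif_of_cc {F : ℕ → ℝ → ℂ} {f : ℝ → ℂ} {K : Set ℝ} (hK : IsCompact K)
    (hf : ContinuousOn f K)
    (h : ∀ x ∈ K, Tendsto (fun p : ℕ × ℝ => F p.1 p.2) (atTop ×ˢ 𝓝[K] x) (𝓝 (f x))) :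
    TendstoUniformlyOn F f atTop K := by
  rw [← tendstoLocallyUniformlyOn_iff_tendstoUniformlyOn_of_compact hK,
    tendstoLocallyUniformlyOn_iff_forall_tendsto]
  intro x hx
  have h1 : Tendsto (fun p : ℕ × ℝ => f p.2) (atTop ×ˢ 𝓝[K] x) (𝓝 (f x)) :=
    (hf x hx).tendsto.comp tendsto_snd
  have h2 := h1.prodMk_nhds (h x hx)
  exact h2.mono_right (nhds_le_uniformity (f x))

/-- Pólya: monotone maps of `[0,1]` which converge pointwise to a continuous map converge
uniformly. -/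
theorem polya {v : ℕ → unitInterval → unitInterval} {v0 : unitInterval → unitInterval}
    (hv : ∀ n, Monotone (v n)) (hv0 : Continuous v0)
    (h : ∀ t, Tendsto (fun n => v n t) atTop (𝓝 (v0 t))) : ∀ ε > 0, ∀ᶠ n in atTop,
      ∀ t, dist (v n t) (v0 t) < ε := by
  intro ε hε
  have hu : UniformContinuous v0 := CompactSpace.uniformContinuous_of_continuous hv0
  obtain ⟨δ, hδ, hδ'⟩ := Metric.uniformContinuous_iff.1 hu (ε / 2) (by positivity)
  obtain ⟨m, hm⟩ := exists_nat_gt (1 / δ)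
  have hm0 : (0 : ℝ) < m := lt_trans (by positivity) hm
  let p : ℕ → unitInterval := fun i => ⟨min ((i : ℝ) / m) 1, le_min (by positivity) zero_le_one,
    min_le_right _ _⟩
  have hev : ∀ᶠ n in atTop, ∀ i ∈ Finset.range (m + 2), dist (v n (p i)) (v0 (p i)) < ε / 2 := by
    rw [Finset.eventually_all]
    intro i _
    exact (Metric.tendsto_nhds.1 (h (p i))) (ε / 2) (by positivity)
  filter_upwards [hev] with n hn t
  set i := ⌊(t : ℝ) * m⌋₊ with hi
  have ht0 : (0 : ℝ) ≤ t := t.2.1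
  have ht1 : (t : ℝ) ≤ 1 := t.2.2
  have him : i ≤ m := by
    rw [hi]
    refine Nat.floor_le_of_le ?_
    nlinarith
  have h1 : (i : ℝ) ≤ (t : ℝ) * m := Nat.floor_le (by positivity)
  have h2 : (t : ℝ) * m < i + 1 := Nat.lt_floor_add_one _
  have hlow : p i ≤ t := by
    change min ((i : ℝ) / m) 1 ≤ (t : ℝ)
    exact (min_le_left _ _).trans (by rw [div_le_iff₀ hm0]; exact h1)
  have hup : t ≤ p (i + 1) := by
    change (t : ℝ) ≤ min (((i + 1 : ℕ) : ℝ) / m) 1
    refine le_min ?_ ht1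
    rw [le_div_iff₀ hm0]; push_cast; exact h2.le
  have hmδ : 1 / (m : ℝ) < δ := by
    rw [div_lt_iff₀ hm0]
    rw [div_lt_iff₀ hδ] at hm
    linarith
  have hd1 : dist (p i) t < δ := by
    rw [Subtype.dist_eq, Real.dist_eq, abs_sub_comm,
      abs_of_nonneg (sub_nonneg.2 (show (p i : ℝ) ≤ t from hlow))]
    change (t : ℝ) - min ((i : ℝ) / m) 1 < δ
    rcases min_choice ((i : ℝ) / m) 1 with h3 | h3
    · rw [h3]
      have : (t : ℝ) < (i + 1) / m := by rw [lt_div_iff₀ hm0]; exact h2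
      have h4 : ((i : ℝ) + 1) / m = i / m + 1 / m := by rw [add_div]
      linarith
    · rw [h3]; linarith
  have hd2 : dist (p (i + 1)) t < δ := by
    rw [Subtype.dist_eq, Real.dist_eq,
      abs_of_nonneg (sub_nonneg.2 (show (t : ℝ) ≤ p (i + 1) from hup))]
    change min (((i + 1 : ℕ) : ℝ) / m) 1 - (t : ℝ) < δ
    have h3 : min (((i + 1 : ℕ) : ℝ) / m) 1 ≤ ((i + 1 : ℕ) : ℝ) / m := min_le_left _ _
    have h4 : (((i + 1 : ℕ) : ℝ)) / m = i / m + 1 / m := by push_cast; rw [add_div]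
    have h5 : (i : ℝ) / m ≤ t := by rw [div_le_iff₀ hm0]; exact h1
    linarith
  have e1 := hδ' hd1
  have e2 := hδ' hd2
  have e3 := hn i (Finset.mem_range.2 (by omega))
  have e4 := hn (i + 1) (Finset.mem_range.2 (by omega))
  have e5 : (v n (p i) : ℝ) ≤ v n t := hv n hlow
  have e6 : (v n t : ℝ) ≤ v n (p (i + 1)) := hv n hup
  rw [Subtype.dist_eq, Real.dist_eq, abs_lt] at e1 e2 e3 e4 ⊢
  constructor <;> linarith [e1.1, e1.2, e2.1, e2.2, e3.1, e3.2, e4.1, e4.2]

/-- Convergence of the reparametrised curves. -/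
theorem cap_conv {x Γ : ℕ → C(unitInterval, ℂ)} {y G : C(unitInterval, ℂ)}
    (hx : Tendsto x atTop (𝓝 y)) {v : ℕ → (unitInterval ≃o unitInterval)}
    {v0 : unitInterval → unitInterval} (hv0 : Continuous v0)
    (hv : ∀ t, Tendsto (fun n => v n t) atTop (𝓝 (v0 t))) (hΓ : ∀ n t, Γ n (v n t) = x n t)
    (hG : ∀ t, G (v0 t) = y t) : Tendsto Γ atTop (𝓝 G) := by
  rw [Metric.tendsto_atTop]
  intro ε hε
  have hu : UniformContinuous G := CompactSpace.uniformContinuous_of_continuous G.continuous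
  obtain ⟨δ, hδ, hδ'⟩ := Metric.uniformContinuous_iff.1 hu (ε / 3) (by positivity)
  have h1 := polya (v := fun n => v n) (fun n => (v n).monotone) hv0 hv δ hδ
  have h2 := (Metric.tendsto_nhds.1 hx) (ε / 3) (by positivity)
  obtain ⟨N, hN⟩ := eventually_atTop.1 (h1.and h2)
  refine ⟨N, fun n hn => ?_⟩
  obtain ⟨h3, h4⟩ := hN n hn
  refine lt_of_le_of_lt ((ContinuousMap.dist_le (C := 2 * ε / 3) (by positivity)).2 fun u => ?_)
    (by linarith)
  obtain ⟨t, rfl⟩ := (v n).surjective u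
  rw [hΓ]
  have h5 : dist (x n t) (y t) ≤ ε / 3 := (ContinuousMap.dist_apply_le_dist t).trans h4.le
  have h6 : dist (y t) (G (v n t)) ≤ ε / 3 := by
    rw [← hG t]
    exact (hδ' (by rw [dist_comm]; exact h3 t)).le
  calc dist (x n t) (G (v n t)) ≤ dist (x n t) (y t) + dist (y t) (G (v n t)) :=
        dist_triangle _ _ _
    _ ≤ 2 * ε / 3 := by linarith

end Vale.Agent.P153.R2.UNIQ
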